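import Vale.Agent.P365.T1a.Site

/-!
# P365-T1, chapter C: Green's identity over a finite set of sites, unit wave of a shielded centre

`S` = region of a cell, `y ∈ S` its centre, `D` = ports (both sides of the boundary of `S`).
`u` = real wave of `y` for the frozen potential (`u y = 1`, `|u| ≤ δ` on the ports).
Everything outside `S` is arbitrary.
-/

set_option linter.all false

namespace P365T1

open P365L P365O Matrix Complex
open scoped ComplexConjugate

namespace H417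

variable {ι : Type*} [Fintype ι] [DecidableEq ι] {A : Matrix ι ι ℝ} {W : ι → ℂ}

/-- boundary form of `S` -/
noncomputable def bd (A : Matrix ι ι ℝ) (S : Finset ι) (a b : ι → ℂ) : ℂ :=
  ∑ x ∈ S, ∑ k ∈ Sᶜ, (A x k : ℂ) * (a x * b k - a k * b x)

/-- size of the boundary -/
noncomputable def nb (A : Matrix ι ι ℝ) (S : Finset ι) : ℝ :=
  ∑ x ∈ S, ∑ k ∈ Sᶜ, |A x k|

theorem nb_nonneg (A : Matrix ι ι ℝ) (S : Finset ι) : 0 ≤ nb A S :=
  Finset.sum_nonneg fun _ _ => Finset.sum_nonneg fun _ _ => abs_nonneg _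

/-- Green's identity over `S` -/
theorem green (hA : A.IsSymm) (S : Finset ι) (U V a b : ι → ℂ) :
    ∑ x ∈ S, (a x * ((Kmat A V).mulVec b x) - b x * ((Kmat A U).mulVec a x)) =
      ∑ x ∈ S, (V x - U x) * (a x * b x) + bd A S a b := by
  have h0 : ∀ x, a x * ((Kmat A V).mulVec b x) - b x * ((Kmat A U).mulVec a x) =
      (V x - U x) * (a x * b x) + ∑ k, (A x k : ℂ) * (a x * b k - a k * b x) := by
    intro x
    rw [Kmat_mulVec, Kmat_mulVec]
    have : ∑ k, (A x k : ℂ) * (a x * b k - a k * b x) =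
        a x * ∑ k, (A x k : ℂ) * b k - b x * ∑ k, (A x k : ℂ) * a k := by
      rw [Finset.mul_sum, Finset.mul_sum, ← Finset.sum_sub_distrib]
      exact Finset.sum_congr rfl fun k _ => by ring
    rw [this]
    ring
  rw [Finset.sum_congr rfl fun x _ => h0 x, Finset.sum_add_distrib]
  congr 1
  have h1 : ∀ x, ∑ k, (A x k : ℂ) * (a x * b k - a k * b x) =
      ∑ k ∈ S, (A x k : ℂ) * (a x * b k - a k * b x) +
        ∑ k ∈ Sᶜ, (A x k : ℂ) * (a x * b k - a k * b x) := by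
    intro x
    rw [Finset.sum_add_sum_compl]
  rw [Finset.sum_congr rfl fun x _ => h1 x, Finset.sum_add_distrib, bd]
  have h2 : ∑ x ∈ S, ∑ k ∈ S, (A x k : ℂ) * (a x * b k - a k * b x) = 0 := by
    have h3 : ∑ x ∈ S, ∑ k ∈ S, (A x k : ℂ) * (a x * b k - a k * b x) =
        -∑ x ∈ S, ∑ k ∈ S, (A x k : ℂ) * (a x * b k - a k * b x) := by
      conv_lhs => rw [Finset.sum_comm]
      rw [← Finset.sum_neg_distrib]
      refine Finset.sum_congr rfl fun x _ => ?_
      rw [← Finset.sum_neg_distrib]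
      refine Finset.sum_congr rfl fun k _ => ?_
      rw [hA.apply x k]
      ring
    exact self_eq_neg.1 h3
  rw [h2, zero_add]

/-- bound of the boundary form -/
theorem norm_bd_le (S : Finset ι) (a b : ι → ℂ) {α β : ℝ} (hα : 0 ≤ α) (hβ : 0 ≤ β)
    (ha : ∀ x ∈ S, ∀ k ∈ Sᶜ, A x k ≠ 0 → ‖a x‖ ≤ α ∧ ‖a k‖ ≤ α)
    (hb : ∀ x ∈ S, ∀ k ∈ Sᶜ, A x k ≠ 0 → ‖b x‖ ≤ β ∧ ‖b k‖ ≤ β) :
    ‖bd A S a b‖ ≤ 2 * α * β * nb A S := by
  unfold bd nb
  rw [Finset.mul_sum]
  refine (norm_sum_le _ _).trans (Finset.sum_le_sum fun x hx => ?_)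
  rw [Finset.mul_sum]
  refine (norm_sum_le _ _).trans (Finset.sum_le_sum fun k hk => ?_)
  by_cases h : A x k = 0
  · rw [h]; simp
  obtain ⟨h1, h2⟩ := ha x hx k hk h
  obtain ⟨h3, h4⟩ := hb x hx k hk h
  rw [norm_mul, Complex.norm_real, Real.norm_eq_abs]
  have h5 : ‖a x * b k - a k * b x‖ ≤ 2 * α * β := by
    refine (norm_sub_le _ _).trans ?_
    rw [norm_mul, norm_mul]
    have := mul_le_mul h1 h4 (norm_nonneg _) hα
    have := mul_le_mul h2 h3 (norm_nonneg _) hα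
    linarith
  nlinarith [abs_nonneg (A x k)]

/-! ### equations of the unit wave and of the Green matrix without `y` -/

theorem K_gw (hA : A.IsSymm) (hW : ∀ x, (W x).im < 0) (y x : ι) :
    (Kmat A W).mulVec (gw A W y) x = if x = y then W y - sg A W y else 0 := by
  have h0 := Gr_self_ne_zero hA hW y
  have h := Kmat_mulVec_Gr hA hW y x
  have h1 : (Kmat A W).mulVec (gw A W y) x =
      (Kmat A W).mulVec (fun z => Gr A W z y) x * (Gr A W y y)⁻¹ := by
    rw [Kmat_mulVec, Kmat_mulVec, add_mul, Finset.sum_mul]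
    simp only [gw, div_eq_mul_inv]
    congr 1
    · exact Finset.sum_congr rfl fun k _ => by ring
    · ring
  rw [h1, h, sg, sub_sub_cancel]
  split_ifs <;> simp

theorem K_Gi (hA : A.IsSymm) (hW : ∀ x, (W x).im < 0) (y b x : ι) :
    (Kmat A W).mulVec (fun z => Gi A W y z b) x =
      (if x = b then 1 else 0) - (if x = y then gw A W y b else 0) := by
  have h0 := Gr_self_ne_zero hA hW y
  have h := Kmat_mulVec_Gr hA hW b x
  have hg := K_gw hA hW y x
  have h1 : (Kmat A W).mulVec (fun z => Gi A W y z b) x =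
      (Kmat A W).mulVec (fun z => Gr A W z b) x -
        (Kmat A W).mulVec (gw A W y) x * Gr A W y b := by
    rw [Kmat_mulVec, Kmat_mulVec, Kmat_mulVec, add_mul, Finset.sum_mul]
    simp only [Gi]
    rw [add_sub_add_comm, ← Finset.sum_sub_distrib]
    congr 1
    · exact Finset.sum_congr rfl fun k _ => by ring
    · ring
  rw [h1, h, hg]
  congr 1
  split_ifs with hx
  · rw [sg, sub_sub_cancel, Gr_eq_gw' hA hW y b]
    field_simp
  · simp

/-! ### the frozen data -/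

/-- frozen data of a cell: `u` = wave of `y`, real self-energy `s`, on the region `S` with
absorption `-(W x).im`; outside `S` nothing is required except the size of `u` on the ports -/
structure Frz (A : Matrix ι ι ℝ) (W : ι → ℂ) (S : Finset ι) (y : ι) (u : ι → ℝ) (s : ℝ) :
    Prop where
  yS : y ∈ S
  uy : u y = 1
  eq : ∀ x ∈ S, x ≠ y → (W x).re * u x + ∑ z, A x z * u z = 0
  eqy : ∑ z, A y z * u z = - s

variable {S : Finset ι} {y : ι} {u : ι → ℝ} {s : ℝ}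

/-- Green's identity against a frozen solution `u` -/
theorem green_u (hA : A.IsSymm) (F : Frz A W S y u s) (b : ι → ℂ) :
    ∑ x ∈ S, (u x : ℂ) * ((Kmat A W).mulVec b x) - b y * ((((W y).re - s : ℝ)) : ℂ) =
      ∑ x ∈ S, (((W x).im : ℝ) : ℂ) * I * ((u x : ℂ) * b x) + bd A S (fun x => (u x : ℂ)) b := by
  have h := green (A := A) hA S (fun x => (((W x).re : ℝ) : ℂ)) W (fun x => (u x : ℂ)) b
  rw [Finset.sum_sub_distrib] at h
  have h1 : ∀ x ∈ S, b x * ((Kmat A (fun x => (((W x).re : ℝ) : ℂ))).mulVec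
      (fun x => (u x : ℂ)) x) = if x = y then b y * ((((W y).re - s : ℝ)) : ℂ) else 0 := by
    intro x hx
    rw [Kmat_mulVec]
    have h2 : (∑ z, (A x z : ℂ) * (u z : ℂ)) = ((∑ z, A x z * u z : ℝ) : ℂ) := by
      push_cast; rfl
    rw [h2]
    split_ifs with hxy
    · subst hxy
      rw [F.eqy, F.uy]
      push_cast
      ring
    · have h3 := F.eq x hx hxy
      have h4 : ((∑ z, A x z * u z : ℝ) : ℂ) + (((W x).re : ℝ) : ℂ) * (u x : ℂ) = 0 := by
        rw [← Complex.ofReal_mul, ← Complex.ofReal_add]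
        rw [show (∑ z, A x z * u z) + (W x).re * u x = 0 by linarith]
        simp
      rw [h4, mul_zero]
  rw [Finset.sum_congr rfl h1, Finset.sum_ite_eq' S y, if_pos F.yS] at h
  rw [h]
  congr 1
  refine Finset.sum_congr rfl fun x _ => ?_
  have h5 : W x - (((W x).re : ℝ) : ℂ) = (((W x).im : ℝ) : ℂ) * I := by
    apply Complex.ext <;> simp
  rw [h5]

/-! ### Cauchy–Schwarz and fluxes -/

omit [Fintype ι] [DecidableEq ι] in
theorem cs (T : Finset ι) (e : ι → ℝ) (he : ∀ x, 0 ≤ e x) (a b : ι → ℂ) :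
    ‖∑ x ∈ T, (e x : ℂ) * (a x * b x)‖ ^ 2 ≤
      (∑ x ∈ T, e x * ‖a x‖ ^ 2) * (∑ x ∈ T, e x * ‖b x‖ ^ 2) := by
  have h1 : ‖∑ x ∈ T, (e x : ℂ) * (a x * b x)‖ ≤
      ∑ x ∈ T, (Real.sqrt (e x) * ‖a x‖) * (Real.sqrt (e x) * ‖b x‖) := by
    refine (norm_sum_le _ _).trans (le_of_eq (Finset.sum_congr rfl fun x _ => ?_))
    rw [norm_mul, norm_mul, Complex.norm_real, Real.norm_eq_abs, abs_of_nonneg (he x)]
    have := Real.mul_self_sqrt (he x)
    calc e x * (‖a x‖ * ‖b x‖) = (Real.sqrt (e x) * Real.sqrt (e x)) * (‖a x‖ * ‖b x‖) := by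
          rw [this]
      _ = _ := by ring
  have h2 := Finset.sum_mul_sq_le_sq_mul_sq T (fun x => Real.sqrt (e x) * ‖a x‖)
    (fun x => Real.sqrt (e x) * ‖b x‖)
  have h3 : ∀ c : ι → ℂ, ∑ x ∈ T, (Real.sqrt (e x) * ‖c x‖) ^ 2 = ∑ x ∈ T, e x * ‖c x‖ ^ 2 := by
    intro c
    refine Finset.sum_congr rfl fun x _ => ?_
    rw [mul_pow, Real.sq_sqrt (he x)]
  rw [h3, h3] at h2
  exact (pow_le_pow_left₀ (norm_nonneg _) h1 2).trans h2

theorem Gi_flux (hA : A.IsSymm) (hW : ∀ x, (W x).im < 0) (y x : ι) :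
    ∑ c, (-(W c).im) * ‖Gi A W y c x‖ ^ 2 = (Gi A W y x x).im := by
  have h := Gi_ward hA hW y x x
  have h2 : ((∑ c, (-(W c).im) * ‖Gi A W y c x‖ ^ 2 : ℝ) : ℂ) = (((Gi A W y x x).im : ℝ) : ℂ) := by
    rw [← h]
    push_cast
    refine Finset.sum_congr rfl fun c _ => ?_
    rw [Complex.mul_conj, Complex.normSq_eq_norm_sq, Gi_symm hA hW y x c]
    push_cast
    rfl
  exact_mod_cast h2

theorem gw_flux (hA : A.IsSymm) (hW : ∀ x, (W x).im < 0) (y : ι) (T : Finset ι) (hT : y ∉ T) :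
    ∑ c ∈ T, (-(W c).im) * ‖gw A W y c‖ ^ 2 ≤ (sg A W y).im := by
  rw [sg_im hA hW]
  have h1 : ∑ c ∈ insert y T, (-(W c).im) * ‖gw A W y c‖ ^ 2 ≤ Sf A W y :=
    Finset.sum_le_sum_of_subset_of_nonneg (Finset.subset_univ _) fun c _ _ =>
      mul_nonneg (by linarith [hW c]) (sq_nonneg _)
  rw [Finset.sum_insert hT, gw_self hA hW, norm_one, one_pow, mul_one] at h1
  linarith

/-- absorption energy of a field in the region -/
noncomputable def ab (W : ι → ℂ) (S : Finset ι) (y : ι) (u : ι → ℝ) : ℝ :=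
  ∑ x ∈ S.erase y, (-(W x).im) * u x ^ 2

theorem ab_nonneg (hW : ∀ x, (W x).im < 0) : 0 ≤ ab W S y u :=
  Finset.sum_nonneg fun x _ => mul_nonneg (by linarith [hW x]) (sq_nonneg _)

theorem abs_term (hA : A.IsSymm) (hW : ∀ x, (W x).im < 0) (b : ι → ℂ) {B : ℝ}
    (hB : ∑ x ∈ S.erase y, (-(W x).im) * ‖b x‖ ^ 2 ≤ B) :
    ‖∑ x ∈ S.erase y, (((-(W x).im : ℝ)) : ℂ) * ((u x : ℂ) * b x)‖ ≤
      Real.sqrt (ab W S y u * B) := by
  refine Real.le_sqrt_of_sq_le ?_
  refine (cs (S.erase y) (fun x => -(W x).im) (fun x => by linarith [hW x])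
    (fun x => (u x : ℂ)) b).trans ?_
  have h1 : ∑ x ∈ S.erase y, -(W x).im * ‖((u x : ℝ) : ℂ)‖ ^ 2 = ab W S y u := by
    unfold ab
    refine Finset.sum_congr rfl fun x _ => ?_
    rw [Complex.norm_real, Real.norm_eq_abs, sq_abs]
  rw [h1]
  exact mul_le_mul_of_nonneg_left hB (ab_nonneg hW)

/-- the sum over `S` of the absorption terms, centre separated -/
theorem abs_split (hy : y ∈ S) (u : ι → ℝ) (b : ι → ℂ) :
    ∑ x ∈ S, (((W x).im : ℝ) : ℂ) * I * ((u x : ℂ) * b x) =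
      (((W y).im : ℝ) : ℂ) * I * ((u y : ℂ) * b y) -
        I * ∑ x ∈ S.erase y, (((-(W x).im : ℝ)) : ℂ) * ((u x : ℂ) * b x) := by
  rw [← Finset.add_sum_erase S _ hy, Finset.mul_sum, sub_eq_add_neg, ← Finset.sum_neg_distrib]
  congr 1
  refine Finset.sum_congr rfl fun x _ => ?_
  push_cast
  ring

/-! ### the unit wave of the centre -/

/-- value of the unit wave anywhere -/
theorem gw_rep (hA : A.IsSymm) (hW : ∀ x, (W x).im < 0) (F : Frz A W S y u s) {x : ι}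
    (hx : x ≠ y) :
    gw A W y x = (if x ∈ S then (u x : ℂ) else 0) +
      I * ∑ z ∈ S.erase y, (((-(W z).im : ℝ)) : ℂ) * ((u z : ℂ) * Gi A W y z x) -
      bd A S (fun z => (u z : ℂ)) (fun z => Gi A W y z x) := by
  have h := green_u hA F (fun z => Gi A W y z x)
  simp only [K_Gi hA hW y x] at h
  rw [abs_split F.yS] at h
  have h1 : ∑ z ∈ S, (u z : ℂ) * ((if z = x then (1 : ℂ) else 0) - (if z = y then gw A W y x else 0))
      = (if x ∈ S then (u x : ℂ) else 0) - gw A W y x := by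
    simp only [mul_sub, Finset.sum_sub_distrib, mul_ite, mul_one, mul_zero]
    rw [Finset.sum_ite_eq' S x, Finset.sum_ite_eq' S y, if_pos F.yS, F.uy]
    simp
  rw [h1, Gi_left hA hW] at h
  linear_combination -h

/-- ports: both sides of the boundary of `S` -/
structure Port (A : Matrix ι ι ℝ) (S D : Finset ι) (y : ι) : Prop where
  cov : ∀ x ∈ S, ∀ k ∈ Sᶜ, A x k ≠ 0 → x ∈ D ∧ k ∈ D
  yD : y ∉ D

variable {D : Finset ι} {δ L : ℝ}

/-- bound of the unit wave on the ports -/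
noncomputable def gm (A : Matrix ι ι ℝ) (W : ι → ℂ) (S : Finset ι) (y : ι) (u : ι → ℝ)
    (δ L : ℝ) : ℝ :=
  δ + Real.sqrt (ab W S y u * L) + 2 * δ * L * nb A S

theorem gm_nonneg (hδ : 0 ≤ δ) (hL : 0 ≤ L) : 0 ≤ gm A W S y u δ L := by
  unfold gm
  have := nb_nonneg A S
  positivity

theorem gw_port (hA : A.IsSymm) (hW : ∀ x, (W x).im < 0) (F : Frz A W S y u s)
    (P : Port A S D y) (hδ : 0 ≤ δ) (hu : ∀ p ∈ D, |u p| ≤ δ) (hL : 0 ≤ L)
    (hG : ∀ p ∈ D, ∀ q ∈ D, ‖Gi A W y p q‖ ≤ L) {x : ι} (hx : x ∈ D) :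
    ‖gw A W y x‖ ≤ gm A W S y u δ L := by
  have hxy : x ≠ y := fun h => P.yD (h ▸ hx)
  rw [gw_rep hA hW F hxy, gm]
  refine (norm_sub_le _ _).trans (add_le_add ((norm_add_le _ _).trans (add_le_add ?_ ?_)) ?_)
  · split_ifs
    · rw [Complex.norm_real, Real.norm_eq_abs]; exact hu x hx
    · simpa using hδ
  · rw [norm_mul, norm_I, one_mul]
    refine abs_term hA hW _ ?_
    have h1 : ∑ c ∈ S.erase y, (-(W c).im) * ‖Gi A W y c x‖ ^ 2 ≤
        ∑ c, (-(W c).im) * ‖Gi A W y c x‖ ^ 2 :=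
      Finset.sum_le_sum_of_subset_of_nonneg (Finset.subset_univ _) fun c _ _ =>
        mul_nonneg (by linarith [hW c]) (sq_nonneg _)
    rw [Gi_flux hA hW] at h1
    exact h1.trans ((Complex.abs_im_le_norm _).trans' (le_abs_self _) |>.trans (hG x hx x hx))
  · refine norm_bd_le S _ _ hδ hL ?_ ?_
    · intro a ha k hk hak
      obtain ⟨h1, h2⟩ := P.cov a ha k hk hak
      rw [Complex.norm_real, Complex.norm_real]
      exact ⟨hu a h1, hu k h2⟩
    · intro a ha k hk hak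
      obtain ⟨h1, h2⟩ := P.cov a ha k hk hak
      exact ⟨hG a h1 x hx, hG k h2 x hx⟩

/-- error of the self-energy -/
noncomputable def kp (A : Matrix ι ι ℝ) (W : ι → ℂ) (S : Finset ι) (y : ι) (u : ι → ℝ)
    (δ L : ℝ) : ℝ :=
  ab W S y u + 4 * δ * gm A W S y u δ L * nb A S

/-- **self-energy of the shielded centre** -/
theorem sg_close (hA : A.IsSymm) (hW : ∀ x, (W x).im < 0) (F : Frz A W S y u s)
    (P : Port A S D y) (hδ : 0 ≤ δ) (hu : ∀ p ∈ D, |u p| ≤ δ) (hL : 0 ≤ L)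
    (hG : ∀ p ∈ D, ∀ q ∈ D, ‖Gi A W y p q‖ ≤ L) :
    ‖sg A W y - s‖ ≤ kp A W S y u δ L ∧ (sg A W y).im ≤ kp A W S y u δ L := by
  have h := green_u hA F (gw A W y)
  simp only [K_gw hA hW y] at h
  rw [abs_split F.yS, gw_self hA hW, F.uy] at h
  have h1 : ∑ x ∈ S, (u x : ℂ) * (if x = y then W y - sg A W y else 0) = W y - sg A W y := by
    simp only [mul_ite, mul_zero]
    rw [Finset.sum_ite_eq' S y, if_pos F.yS, F.uy]
    simp
  rw [h1] at h
  have h2 : sg A W y - s = I * (∑ x ∈ S.erase y, (((-(W x).im : ℝ)) : ℂ) *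
      ((u x : ℂ) * gw A W y x)) - bd A S (fun x => (u x : ℂ)) (gw A W y) := by
    have h3 : W y = (((W y).re : ℝ) : ℂ) + (((W y).im : ℝ) : ℂ) * I := (Complex.re_add_im _).symm
    have h4 : (((1 : ℝ)) : ℂ) = 1 := by simp
    rw [h4] at h
    push_cast at h ⊢
    linear_combination -h + h3
  have hg0 := gm_nonneg (A := A) (W := W) (S := S) (y := y) (u := u) hδ hL
  have h5 : ‖bd A S (fun x => (u x : ℂ)) (gw A W y)‖ ≤ 2 * δ * gm A W S y u δ L * nb A S := by
    refine norm_bd_le S _ _ hδ hg0 ?_ ?_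
    · intro a ha k hk hak
      obtain ⟨h1, h2⟩ := P.cov a ha k hk hak
      rw [Complex.norm_real, Complex.norm_real]
      exact ⟨hu a h1, hu k h2⟩
    · intro a ha k hk hak
      obtain ⟨h1, h2⟩ := P.cov a ha k hk hak
      exact ⟨gw_port hA hW F P hδ hu hL hG h1, gw_port hA hW F P hδ hu hL hG h2⟩
  have h6 := abs_term (u := u) (S := S) hA hW (gw A W y)
    (gw_flux hA hW y (S.erase y) (Finset.notMem_erase y S))
  have h7 : Real.sqrt (ab W S y u * (sg A W y).im) ≤ (ab W S y u + (sg A W y).im) / 2 := by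
    refine Real.sqrt_le_iff.2 ⟨?_, ?_⟩
    · have := ab_nonneg (S := S) (y := y) (u := u) hW
      have := sg_im_nonneg hA hW y
      linarith
    · nlinarith [sq_nonneg (ab W S y u - (sg A W y).im)]
  have h8 : ‖sg A W y - s‖ ≤ (ab W S y u + (sg A W y).im) / 2 +
      2 * δ * gm A W S y u δ L * nb A S := by
    rw [h2]
    refine (norm_sub_le _ _).trans (add_le_add ?_ h5)
    rw [norm_mul, norm_I, one_mul]
    exact h6.trans h7
  have h9 : (sg A W y).im ≤ ‖sg A W y - s‖ := by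
    have := Complex.abs_im_le_norm (sg A W y - s)
    rw [Complex.sub_im, Complex.ofReal_im, sub_zero] at this
    exact (le_abs_self _).trans this
  have h10 : (sg A W y).im ≤ kp A W S y u δ L := by
    unfold kp; linarith
  refine ⟨?_, h10⟩
  unfold kp at h10 ⊢
  linarith

/-! ### the wave inside the region -/

/-- frozen Green column at `ρ` without `y` -/
structure FrzG (A : Matrix ι ι ℝ) (W : ι → ℂ) (S : Finset ι) (y : ι) (u : ι → ℝ) (ρ : ι)
    (φ : ι → ℝ) : Prop where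
  ρS : ρ ∈ S
  ρy : ρ ≠ y
  φy : φ y = 0
  eq : ∀ x ∈ S, x ≠ y → (W x).re * φ x + ∑ z, A x z * φ z = if x = ρ then 1 else 0
  eqy : ∑ z, A y z * φ z = - u ρ

theorem gw_in_rep (hA : A.IsSymm) (hW : ∀ x, (W x).im < 0) (hy : y ∈ S) {ρ : ι} {φ : ι → ℝ}
    (H : FrzG A W S y u ρ φ) :
    gw A W y ρ = (u ρ : ℂ) +
      I * ∑ z ∈ S.erase y, (((-(W z).im : ℝ)) : ℂ) * ((φ z : ℂ) * gw A W y z) -
      bd A S (fun z => (φ z : ℂ)) (gw A W y) := by
  have h := green (A := A) hA S (fun x => (((W x).re : ℝ) : ℂ)) W (fun x => (φ x : ℂ)) (gw A W y)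
  rw [Finset.sum_sub_distrib] at h
  simp only [K_gw hA hW y] at h
  have h1 : ∑ x ∈ S, (φ x : ℂ) * (if x = y then W y - sg A W y else 0) = 0 := by
    simp only [mul_ite, mul_zero]
    rw [Finset.sum_ite_eq' S y, if_pos hy, H.φy]
    simp
  have h2 : ∀ x ∈ S, gw A W y x * ((Kmat A (fun x => (((W x).re : ℝ) : ℂ))).mulVec
      (fun x => (φ x : ℂ)) x) =
      (if x = ρ then gw A W y ρ else 0) - (if x = y then (u ρ : ℂ) else 0) := by
    intro x hx
    rw [Kmat_mulVec]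
    have h3 : (∑ z, (A x z : ℂ) * (φ z : ℂ)) = ((∑ z, A x z * φ z : ℝ) : ℂ) := by
      push_cast; rfl
    rw [h3]
    by_cases hxy : x = y
    · subst hxy
      rw [if_neg (fun h => H.ρy h.symm), if_pos rfl, H.eqy, H.φy, gw_self hA hW]
      push_cast
      ring
    · rw [if_neg hxy, sub_zero]
      have h4 := H.eq x hx hxy
      have h5 : ((∑ z, A x z * φ z : ℝ) : ℂ) + (((W x).re : ℝ) : ℂ) * (φ x : ℂ) =
          if x = ρ then 1 else 0 := by
        rw [← Complex.ofReal_mul, ← Complex.ofReal_add]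
        rw [show (∑ z, A x z * φ z) + (W x).re * φ x = if x = ρ then 1 else 0 by linarith]
        split_ifs <;> simp
      rw [h5]
      split_ifs with hxr
      · rw [hxr, mul_one]
      · rw [mul_zero]
  rw [h1, Finset.sum_congr rfl h2, Finset.sum_sub_distrib, Finset.sum_ite_eq' S ρ,
    Finset.sum_ite_eq' S y, if_pos H.ρS, if_pos hy] at h
  have h6 : ∀ x ∈ S, (W x - (((W x).re : ℝ) : ℂ)) * ((φ x : ℂ) * gw A W y x) =
      (((W x).im : ℝ) : ℂ) * I * ((φ x : ℂ) * gw A W y x) := by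
    intro x _
    have h5 : W x - (((W x).re : ℝ) : ℂ) = (((W x).im : ℝ) : ℂ) * I := by
      apply Complex.ext <;> simp
    rw [h5]
  rw [Finset.sum_congr rfl h6, abs_split hy, H.φy] at h
  simp only [Complex.ofReal_zero, zero_mul, mul_zero, zero_sub] at h
  linear_combination -h

/-- **the wave of the centre is close to the frozen wave inside the region** -/
theorem gw_in (hA : A.IsSymm) (hW : ∀ x, (W x).im < 0) (F : Frz A W S y u s)
    (P : Port A S D y) (hδ : 0 ≤ δ) (hu : ∀ p ∈ D, |u p| ≤ δ) (hL : 0 ≤ L)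
    (hG : ∀ p ∈ D, ∀ q ∈ D, ‖Gi A W y p q‖ ≤ L) {ρ : ι} {φ : ι → ℝ}
    (H : FrzG A W S y u ρ φ) {η : ℝ} (hη : 0 ≤ η) (hφ : ∀ p ∈ D, |φ p| ≤ η) :
    ‖gw A W y ρ - u ρ‖ ≤ Real.sqrt (ab W S y φ * kp A W S y u δ L) +
      2 * η * gm A W S y u δ L * nb A S := by
  rw [gw_in_rep hA hW F.yS H]
  have hg0 := gm_nonneg (A := A) (W := W) (S := S) (y := y) (u := u) hδ hL
  have h1 : (u ρ : ℂ) + I * ∑ z ∈ S.erase y, (((-(W z).im : ℝ)) : ℂ) * ((φ z : ℂ) * gw A W y z) -
      bd A S (fun z => (φ z : ℂ)) (gw A W y) - (u ρ : ℂ) =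
      I * ∑ z ∈ S.erase y, (((-(W z).im : ℝ)) : ℂ) * ((φ z : ℂ) * gw A W y z) -
      bd A S (fun z => (φ z : ℂ)) (gw A W y) := by ring
  rw [h1]
  refine (norm_sub_le _ _).trans (add_le_add ?_ ?_)
  · rw [norm_mul, norm_I, one_mul]
    exact abs_term hA hW _ ((gw_flux hA hW y (S.erase y) (Finset.notMem_erase y S)).trans
      (sg_close hA hW F P hδ hu hL hG).2)
  · refine norm_bd_le S _ _ hη hg0 ?_ ?_
    · intro a ha k hk hak
      obtain ⟨h1, h2⟩ := P.cov a ha k hk hak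
      rw [Complex.norm_real, Complex.norm_real]
      exact ⟨hφ a h1, hφ k h2⟩
    · intro a ha k hk hak
      obtain ⟨h1, h2⟩ := P.cov a ha k hk hak
      exact ⟨gw_port hA hW F P hδ hu hL hG h1, gw_port hA hW F P hδ hu hL hG h2⟩

end H417

end P365T1
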