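import Vale.Agent.P365.H417.Cell
import Vale.Agent.P365.C937.BasePt
import Vale.Agent.P365.C937.TwoSite

/-!
# P365-T1, chapter C: far energy of the shielded centre, lower bound of its energy density
-/

set_option linter.all false

namespace P365T1

open P365L P365O Matrix Complex MeasureTheory
open scoped ComplexConjugate

namespace H417

variable {ι : Type*} [Fintype ι] [DecidableEq ι] {A : Matrix ι ι ℝ} {W : ι → ℂ}
variable {S D : Finset ι} {y : ι} {u : ι → ℝ} {s δ L : ℝ}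

/-- boundary sum of a nonnegative function is at most `4 ∑_D` -/
theorem bsum_le (hA : A.IsSymm) (hdeg : ∀ x, ∑ z, |A x z| ≤ 4) (P : Port A S D y) (F : ι → ℝ)
    (hF : ∀ x, 0 ≤ F x) :
    ∑ x ∈ S, ∑ k ∈ Sᶜ, |A x k| * (F x + F k) ≤ 4 * ∑ p ∈ D, F p := by
  have h1 : ∑ x ∈ S, ∑ k ∈ Sᶜ, |A x k| * (F x + F k) =
      ∑ x ∈ S, (∑ k ∈ Sᶜ, |A x k|) * F x + ∑ k ∈ Sᶜ, (∑ x ∈ S, |A k x|) * F k := by
    have h2 : ∀ x ∈ S, ∑ k ∈ Sᶜ, |A x k| * (F x + F k) =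
        (∑ k ∈ Sᶜ, |A x k|) * F x + ∑ k ∈ Sᶜ, |A x k| * F k := by
      intro x _
      rw [Finset.sum_mul, ← Finset.sum_add_distrib]
      exact Finset.sum_congr rfl fun k _ => by ring
    rw [Finset.sum_congr rfl h2, Finset.sum_add_distrib]
    congr 1
    rw [Finset.sum_comm]
    refine Finset.sum_congr rfl fun k _ => ?_
    rw [Finset.sum_mul]
    refine Finset.sum_congr rfl fun x _ => ?_
    rw [hA.apply x k]
  rw [h1]
  have h3 : ∀ x ∈ S, (∑ k ∈ Sᶜ, |A x k|) * F x ≤ if x ∈ D then 4 * F x else 0 := by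
    intro x hx
    split_ifs with hxD
    · refine mul_le_mul_of_nonneg_right ?_ (hF x)
      exact (Finset.sum_le_sum_of_subset_of_nonneg (Finset.subset_univ _)
        fun _ _ _ => abs_nonneg _).trans (hdeg x)
    · have : ∑ k ∈ Sᶜ, |A x k| = 0 := by
        refine Finset.sum_eq_zero fun k hk => ?_
        by_contra hne
        exact hxD (P.cov x hx k hk (fun h0 => hne (by rw [h0, abs_zero]))).1
      rw [this, zero_mul]
  have h4 : ∀ k ∈ Sᶜ, (∑ x ∈ S, |A k x|) * F k ≤ if k ∈ D then 4 * F k else 0 := by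
    intro k hk
    split_ifs with hkD
    · refine mul_le_mul_of_nonneg_right ?_ (hF k)
      exact (Finset.sum_le_sum_of_subset_of_nonneg (Finset.subset_univ _)
        fun _ _ _ => abs_nonneg _).trans (hdeg k)
    · have : ∑ x ∈ S, |A k x| = 0 := by
        refine Finset.sum_eq_zero fun x hx => ?_
        by_contra hne
        exact hkD (P.cov x hx k hk (fun h0 => hne (by rw [hA.apply x k, h0, abs_zero]))).2
      rw [this, zero_mul]
  refine (add_le_add (Finset.sum_le_sum h3) (Finset.sum_le_sum h4)).trans ?_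
  rw [Finset.sum_add_sum_compl, Finset.mul_sum, Finset.sum_ite_mem, Finset.univ_inter]

/-- the boundary form, squared -/
theorem bd_sq_le (hA : A.IsSymm) (hdeg : ∀ x, ∑ z, |A x z| ≤ 4) (P : Port A S D y)
    (hδ : 0 ≤ δ) (hu : ∀ p ∈ D, |u p| ≤ δ) (b : ι → ℂ) :
    ‖bd A S (fun z => (u z : ℂ)) b‖ ^ 2 ≤ 8 * nb A S * δ ^ 2 * ∑ p ∈ D, ‖b p‖ ^ 2 := by
  -- Cauchy-Schwarz over the pairs
  set T : Finset (ι × ι) := S ×ˢ Sᶜ with hT
  have h1 : ‖bd A S (fun z => (u z : ℂ)) b‖ ≤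
      ∑ q ∈ T, |A q.1 q.2| * (δ * (‖b q.1‖ + ‖b q.2‖)) := by
    rw [bd, hT, Finset.sum_product]
    refine (norm_sum_le _ _).trans (Finset.sum_le_sum fun x hx => ?_)
    refine (norm_sum_le _ _).trans (Finset.sum_le_sum fun k hk => ?_)
    by_cases h : A x k = 0
    · rw [h]; simp
    obtain ⟨h1, h2⟩ := P.cov x hx k hk h
    rw [norm_mul, Complex.norm_real, Real.norm_eq_abs]
    refine mul_le_mul_of_nonneg_left ?_ (abs_nonneg _)
    refine (norm_sub_le _ _).trans ?_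
    rw [norm_mul, norm_mul, Complex.norm_real, Complex.norm_real, Real.norm_eq_abs,
      Real.norm_eq_abs]
    have h3 := mul_le_mul_of_nonneg_right (hu x h1) (norm_nonneg (b k))
    have h4 := mul_le_mul_of_nonneg_right (hu k h2) (norm_nonneg (b x))
    linarith
  have h2 : (∑ q ∈ T, |A q.1 q.2| * (δ * (‖b q.1‖ + ‖b q.2‖))) ^ 2 ≤
      (∑ q ∈ T, |A q.1 q.2|) * ∑ q ∈ T, |A q.1 q.2| * (δ * (‖b q.1‖ + ‖b q.2‖)) ^ 2 := by
    have h3 := Finset.sum_mul_sq_le_sq_mul_sq T (fun q => Real.sqrt |A q.1 q.2|)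
      (fun q => Real.sqrt |A q.1 q.2| * (δ * (‖b q.1‖ + ‖b q.2‖)))
    have h4 : ∀ q : ι × ι, Real.sqrt |A q.1 q.2| * (Real.sqrt |A q.1 q.2| *
        (δ * (‖b q.1‖ + ‖b q.2‖))) = |A q.1 q.2| * (δ * (‖b q.1‖ + ‖b q.2‖)) := by
      intro q
      rw [← mul_assoc, Real.mul_self_sqrt (abs_nonneg _)]
    have h5 : ∀ q : ι × ι, (Real.sqrt |A q.1 q.2|) ^ 2 = |A q.1 q.2| :=
      fun q => Real.sq_sqrt (abs_nonneg _)
    simp only [h4, mul_pow, h5] at h3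
    simp only [mul_pow]
    exact h3
  have h3 : ∑ q ∈ T, |A q.1 q.2| = nb A S := by
    rw [hT, Finset.sum_product, nb]
  have h4 : ∑ q ∈ T, |A q.1 q.2| * (δ * (‖b q.1‖ + ‖b q.2‖)) ^ 2 ≤
      2 * δ ^ 2 * (4 * ∑ p ∈ D, ‖b p‖ ^ 2) := by
    have h5 := bsum_le hA hdeg P (fun p => ‖b p‖ ^ 2) (fun p => sq_nonneg _)
    have h6 : ∑ q ∈ T, |A q.1 q.2| * (δ * (‖b q.1‖ + ‖b q.2‖)) ^ 2 ≤
        2 * δ ^ 2 * ∑ q ∈ T, |A q.1 q.2| * (‖b q.1‖ ^ 2 + ‖b q.2‖ ^ 2) := by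
      rw [Finset.mul_sum]
      refine Finset.sum_le_sum fun q _ => ?_
      have h7 : (δ * (‖b q.1‖ + ‖b q.2‖)) ^ 2 ≤ 2 * δ ^ 2 * (‖b q.1‖ ^ 2 + ‖b q.2‖ ^ 2) := by
        nlinarith [mul_nonneg (sq_nonneg δ) (sq_nonneg (‖b q.1‖ - ‖b q.2‖))]
      calc |A q.1 q.2| * (δ * (‖b q.1‖ + ‖b q.2‖)) ^ 2
          ≤ |A q.1 q.2| * (2 * δ ^ 2 * (‖b q.1‖ ^ 2 + ‖b q.2‖ ^ 2)) :=
            mul_le_mul_of_nonneg_left h7 (abs_nonneg _)
        _ = _ := by ring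
    refine h6.trans (mul_le_mul_of_nonneg_left ?_ (by positivity))
    rw [hT, Finset.sum_product]
    exact h5
  have h5 := nb_nonneg A S
  calc ‖bd A S (fun z => (u z : ℂ)) b‖ ^ 2
      ≤ (∑ q ∈ T, |A q.1 q.2| * (δ * (‖b q.1‖ + ‖b q.2‖))) ^ 2 :=
        pow_le_pow_left₀ (norm_nonneg _) h1 2
    _ ≤ nb A S * (2 * δ ^ 2 * (4 * ∑ p ∈ D, ‖b p‖ ^ 2)) := by
        rw [h3] at h2
        exact h2.trans (mul_le_mul_of_nonneg_left h4 h5)
    _ = _ := by ring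

/-- far energy density with `y` removed -/
noncomputable def Mi (A : Matrix ι ι ℝ) (W : ι → ℂ) (f : ι → ℝ) (B : Finset ι) (fo : ℝ)
    (y x : ι) : ℝ :=
  ∑ z ∈ Bᶜ, (-(W z).im) * ‖Gi A W y x z‖ ^ 2 * (f z - fo) ^ 2

theorem Mi_le (hA : A.IsSymm) (hW : ∀ x, (W x).im < 0) (f : ι → ℝ) (B : Finset ι) (fo : ℝ)
    (y x : ι) :
    Mi A W f B fo y x ≤ 2 * Mfar A W f B fo x + 2 * ‖gw A W y x‖ ^ 2 * Mfar A W f B fo y := by
  unfold Mi Mfar
  rw [Finset.mul_sum, Finset.mul_sum, ← Finset.sum_add_distrib]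
  refine Finset.sum_le_sum fun z _ => ?_
  have h1 : ‖Gi A W y x z‖ ^ 2 ≤ 2 * ‖Gr A W x z‖ ^ 2 + 2 * (‖gw A W y x‖ ^ 2 * ‖Gr A W y z‖ ^ 2) := by
    rw [Gi, ← mul_pow, ← norm_mul]
    have := norm_sub_le (Gr A W x z) (gw A W y x * Gr A W y z)
    nlinarith [norm_nonneg (Gr A W x z - gw A W y x * Gr A W y z), norm_nonneg (Gr A W x z),
      norm_nonneg (gw A W y x * Gr A W y z),
      sq_nonneg (‖Gr A W x z‖ - ‖gw A W y x * Gr A W y z‖)]
  rw [KK, KK]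
  have h2 : 0 ≤ (-(W z).im) * (f z - fo) ^ 2 := mul_nonneg (by linarith [hW z]) (sq_nonneg _)
  nlinarith [mul_le_mul_of_nonneg_left h1 h2]

/-- **CENTRE, first form**: far energy of the shielded centre through the ports -/
theorem Nfar_centre (hA : A.IsSymm) (hdeg : ∀ x, ∑ z, |A x z| ≤ 4) (hW : ∀ x, (W x).im < 0)
    (F : Frz A W S y u s) (P : Port A S D y) (hδ : 0 ≤ δ) (hu : ∀ p ∈ D, |u p| ≤ δ)
    {B : Finset ι} (hSB : S ⊆ B) (f : ι → ℝ) (fo : ℝ) :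
    Nfar A W f B fo y ≤ 2 * ab W S y u * (∑ x ∈ S.erase y, (-(W x).im) * Mi A W f B fo y x) +
      16 * nb A S * δ ^ 2 * ∑ p ∈ D, Mi A W f B fo y p := by
  have hpt : ∀ z ∈ Bᶜ, ‖gw A W y z‖ ^ 2 ≤
      2 * (ab W S y u * ∑ x ∈ S.erase y, (-(W x).im) * ‖Gi A W y x z‖ ^ 2) +
        2 * (8 * nb A S * δ ^ 2 * ∑ p ∈ D, ‖Gi A W y p z‖ ^ 2) := by
    intro z hz
    have hzS : z ∉ S := fun h => (Finset.mem_compl.1 hz) (hSB h)
    have hzy : z ≠ y := fun h => hzS (h ▸ F.yS)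
    rw [gw_rep hA hW F hzy, if_neg hzS, zero_add]
    have h1 := cs (S.erase y) (fun x => -(W x).im) (fun x => by linarith [hW x])
      (fun x => (u x : ℂ)) (fun x => Gi A W y x z)
    have h2 : ∑ x ∈ S.erase y, -(W x).im * ‖((u x : ℝ) : ℂ)‖ ^ 2 = ab W S y u := by
      unfold ab
      refine Finset.sum_congr rfl fun x _ => ?_
      rw [Complex.norm_real, Real.norm_eq_abs, sq_abs]
    rw [h2] at h1
    have h3 := bd_sq_le hA hdeg P hδ hu (fun x => Gi A W y x z)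
    set a := I * ∑ x ∈ S.erase y, (((-(W x).im : ℝ)) : ℂ) * ((u x : ℂ) * Gi A W y x z) with ha
    set c := bd A S (fun x => (u x : ℂ)) (fun x => Gi A W y x z) with hc
    have h4 : ‖a‖ ^ 2 ≤ ab W S y u * ∑ x ∈ S.erase y, (-(W x).im) * ‖Gi A W y x z‖ ^ 2 := by
      rw [ha, norm_mul, norm_I, one_mul]
      exact h1
    have h5 := norm_sub_le a c
    nlinarith [norm_nonneg (a - c), norm_nonneg a, norm_nonneg c, sq_nonneg (‖a‖ - ‖c‖)]
  have h1 : Nfar A W f B fo y ≤ ∑ z ∈ Bᶜ, (2 * ab W S y u *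
      (∑ x ∈ S.erase y, (-(W x).im) * ((-(W z).im) * ‖Gi A W y x z‖ ^ 2 * (f z - fo) ^ 2)) +
      16 * nb A S * δ ^ 2 * ∑ p ∈ D, (-(W z).im) * ‖Gi A W y p z‖ ^ 2 * (f z - fo) ^ 2) := by
    unfold Nfar
    refine Finset.sum_le_sum fun z hz => ?_
    have h2 : 0 ≤ (-(W z).im) * (f z - fo) ^ 2 := mul_nonneg (by linarith [hW z]) (sq_nonneg _)
    have h3 := mul_le_mul_of_nonneg_left (hpt z hz) h2
    have h4 : ∑ x ∈ S.erase y, (-(W x).im) * ((-(W z).im) * ‖Gi A W y x z‖ ^ 2 * (f z - fo) ^ 2) =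
        ((-(W z).im) * (f z - fo) ^ 2) * ∑ x ∈ S.erase y, (-(W x).im) * ‖Gi A W y x z‖ ^ 2 := by
      rw [Finset.mul_sum]
      exact Finset.sum_congr rfl fun x _ => by ring
    have h5 : ∑ p ∈ D, (-(W z).im) * ‖Gi A W y p z‖ ^ 2 * (f z - fo) ^ 2 =
        ((-(W z).im) * (f z - fo) ^ 2) * ∑ p ∈ D, ‖Gi A W y p z‖ ^ 2 := by
      rw [Finset.mul_sum]
      exact Finset.sum_congr rfl fun x _ => by ring
    rw [h4, h5]
    calc (-(W z).im) * ‖gw A W y z‖ ^ 2 * (f z - fo) ^ 2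
        = (-(W z).im) * (f z - fo) ^ 2 * ‖gw A W y z‖ ^ 2 := by ring
      _ ≤ _ := h3
      _ = _ := by ring
  refine h1.trans (le_of_eq ?_)
  rw [Finset.sum_add_distrib, ← Finset.mul_sum, ← Finset.mul_sum]
  congr 2
  · rw [Finset.sum_comm]
    refine Finset.sum_congr rfl fun x _ => ?_
    rw [← Finset.mul_sum]
    rfl
  · rw [Finset.sum_comm]
    rfl

/-- **CENTRE**: far energy of the shielded centre -/
theorem centre_far (hA : A.IsSymm) (hdeg : ∀ x, ∑ z, |A x z| ≤ 4) (hW : ∀ x, (W x).im < 0)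
    (F : Frz A W S y u s) (P : Port A S D y) (hδ : 0 ≤ δ) (hu : ∀ p ∈ D, |u p| ≤ δ)
    (hL : 0 ≤ L) (hG : ∀ p ∈ D, ∀ q ∈ D, ‖Gi A W y p q‖ ≤ L)
    {B : Finset ι} (hSB : S ⊆ B) (f : ι → ℝ) (fo : ℝ) :
    Nfar A W f B fo y ≤
      4 * ab W S y u * (∑ x ∈ S.erase y, (-(W x).im) * Mfar A W f B fo x +
        kp A W S y u δ L * Mfar A W f B fo y) +
      32 * nb A S * δ ^ 2 * (∑ p ∈ D, Mfar A W f B fo p +
        (D.card : ℝ) * gm A W S y u δ L ^ 2 * Mfar A W f B fo y) := by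
  have h0 := Nfar_centre hA hdeg hW F P hδ hu hSB f fo
  have hM := Mfar_nonneg (A := A) hW f B fo y
  have hab := ab_nonneg (S := S) (y := y) (u := u) hW
  have hnb := nb_nonneg A S
  have h1 : ∑ x ∈ S.erase y, (-(W x).im) * Mi A W f B fo y x ≤
      2 * (∑ x ∈ S.erase y, (-(W x).im) * Mfar A W f B fo x +
        kp A W S y u δ L * Mfar A W f B fo y) := by
    have h2 : ∑ x ∈ S.erase y, (-(W x).im) * Mi A W f B fo y x ≤
        ∑ x ∈ S.erase y, (2 * ((-(W x).im) * Mfar A W f B fo x) +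
          2 * (((-(W x).im) * ‖gw A W y x‖ ^ 2) * Mfar A W f B fo y)) := by
      refine Finset.sum_le_sum fun x _ => ?_
      have := mul_le_mul_of_nonneg_left (Mi_le hA hW f B fo y x)
        (show 0 ≤ -(W x).im by linarith [hW x])
      linarith
    refine h2.trans ?_
    rw [Finset.sum_add_distrib, ← Finset.mul_sum, ← Finset.mul_sum, ← Finset.sum_mul]
    have h3 := (gw_flux hA hW y (S.erase y) (Finset.notMem_erase y S)).trans
      (sg_close hA hW F P hδ hu hL hG).2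
    have h4 := mul_le_mul_of_nonneg_right h3 hM
    linarith
  have h2 : ∑ p ∈ D, Mi A W f B fo y p ≤ 2 * (∑ p ∈ D, Mfar A W f B fo p +
        (D.card : ℝ) * gm A W S y u δ L ^ 2 * Mfar A W f B fo y) := by
    have h3 : ∑ p ∈ D, Mi A W f B fo y p ≤
        ∑ p ∈ D, (2 * Mfar A W f B fo p + 2 * (gm A W S y u δ L ^ 2 * Mfar A W f B fo y)) := by
      refine Finset.sum_le_sum fun p hp => ?_
      have h4 := gw_port hA hW F P hδ hu hL hG hp
      have h5 : ‖gw A W y p‖ ^ 2 ≤ gm A W S y u δ L ^ 2 := pow_le_pow_left₀ (norm_nonneg _) h4 2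
      have h6 := mul_le_mul_of_nonneg_right h5 hM
      have := Mi_le hA hW f B fo y p
      linarith
    refine h3.trans (le_of_eq ?_)
    rw [Finset.sum_add_distrib, ← Finset.mul_sum, Finset.sum_const, nsmul_eq_mul]
    ring
  have h3 := mul_le_mul_of_nonneg_left h1 (show 0 ≤ 2 * ab W S y u by positivity)
  have h4 := mul_le_mul_of_nonneg_left h2 (show 0 ≤ 16 * nb A S * δ ^ 2 by positivity)
  linarith

end H417

end P365T1
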