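import Vale.Agent.P365.T1a.Site

/-!
# P365-T1, ISL design: elimination of the interior of a cell

`Lc` = sites of the cell box without the centre `y`.  `GB = Gr (mk A Lc) W` = Green matrix of the
box with Dirichlet condition (only its entries in `Lc × Lc` are used); it depends on `W` on `Lc`
only.  `tt A W Lc y k` = effective coupling of `y` to `k ∉ Lc` (`k = y`: self-energy `h₀`).
-/

set_option linter.all false

namespace P365T1

open P365L P365O Matrix Complex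
open scoped ComplexConjugate

namespace H417

variable {ι : Type*} [Fintype ι] [DecidableEq ι] {A : Matrix ι ι ℝ} {W : ι → ℂ}

/-- restriction of the graph to `Lc` -/
def mk (A : Matrix ι ι ℝ) (Lc : Finset ι) : Matrix ι ι ℝ :=
  fun x z => if x ∈ Lc ∧ z ∈ Lc then A x z else 0

theorem mk_symm (hA : A.IsSymm) (Lc : Finset ι) : (mk A Lc).IsSymm := by
  ext x z
  simp only [Matrix.transpose_apply, mk]
  by_cases h : x ∈ Lc ∧ z ∈ Lc
  · rw [if_pos h, if_pos ⟨h.2, h.1⟩, hA.apply]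
  · rw [if_neg h, if_neg (fun h' => h ⟨h'.2, h'.1⟩)]

/-- Green matrix of the box -/
noncomputable def GB (A : Matrix ι ι ℝ) (W : ι → ℂ) (Lc : Finset ι) : Matrix ι ι ℂ :=
  Gr (mk A Lc) W

theorem GB_symm (hA : A.IsSymm) (Lc : Finset ι) (x z : ι) : GB A W Lc x z = GB A W Lc z x :=
  Gr_symm (mk_symm hA Lc) x z

/-- the equation of `GB` in its row variable -/
theorem GB_eq (hA : A.IsSymm) (hW : ∀ x, (W x).im < 0) {Lc : Finset ι} {n b : ι} (hn : n ∈ Lc) :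
    ∑ k ∈ Lc, (A n k : ℂ) * GB A W Lc k b + W n * GB A W Lc n b = if n = b then 1 else 0 := by
  have h := Kmat_mulVec_Gr (mk_symm hA Lc) hW b n
  rw [Kmat_mulVec] at h
  rw [← h]
  congr 1
  rw [← Finset.sum_subset (Finset.subset_univ Lc)]
  · refine Finset.sum_congr rfl fun k hk => ?_
    rw [mk, if_pos ⟨hn, hk⟩]; rfl
  · intro k _ hk
    rw [mk, if_neg (fun h' => hk h'.2)]
    simp

theorem GB_eq' (hA : A.IsSymm) (hW : ∀ x, (W x).im < 0) {Lc : Finset ι} {n b : ι} (hb : b ∈ Lc) :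
    ∑ k ∈ Lc, GB A W Lc n k * (A k b : ℂ) + GB A W Lc n b * W b = if n = b then 1 else 0 := by
  have h := GB_eq (b := n) hA hW hb
  rw [show (if b = n then (1 : ℂ) else 0) = if n = b then 1 else 0 by
    by_cases h' : n = b
    · rw [if_pos h', if_pos h'.symm]
    · rw [if_neg h', if_neg (Ne.symm h')]] at h
  rw [← h]
  congr 1
  · refine Finset.sum_congr rfl fun k _ => ?_
    rw [GB_symm hA Lc n k, hA.apply k b]
    ring
  · rw [GB_symm hA Lc n b]; ring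

/-- uniqueness inside: a vector without source in `Lc` is determined by its values outside -/
theorem inside (hA : A.IsSymm) (hW : ∀ x, (W x).im < 0) {Lc : Finset ι} {b : ι → ℂ}
    (hb : ∀ n ∈ Lc, (Kmat A W).mulVec b n = 0) {n : ι} (hn : n ∈ Lc) :
    b n = -∑ n' ∈ Lc, GB A W Lc n n' * ∑ k ∈ Lcᶜ, (A n' k : ℂ) * b k := by
  have h1 : ∀ n' ∈ Lc, ∑ k ∈ Lcᶜ, (A n' k : ℂ) * b k =
      -(∑ k ∈ Lc, (A n' k : ℂ) * b k + W n' * b n') := by
    intro n' hn'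
    have h := hb n' hn'
    rw [Kmat_mulVec, ← Finset.sum_add_sum_compl Lc] at h
    linear_combination h
  have h2 : ∑ n' ∈ Lc, GB A W Lc n n' * ∑ k ∈ Lcᶜ, (A n' k : ℂ) * b k =
      -∑ k ∈ Lc, (∑ n' ∈ Lc, GB A W Lc n n' * (A n' k : ℂ) + GB A W Lc n k * W k) * b k := by
    rw [Finset.sum_congr rfl fun n' hn' => by rw [h1 n' hn']]
    simp only [mul_neg, Finset.sum_neg_distrib, mul_add, add_mul, Finset.sum_add_distrib]
    congr 2
    · simp only [Finset.mul_sum, Finset.sum_mul]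
      rw [Finset.sum_comm]
      exact Finset.sum_congr rfl fun k _ => Finset.sum_congr rfl fun n' _ => by ring
    · exact Finset.sum_congr rfl fun n' _ => by ring
  rw [h2, neg_neg, Finset.sum_congr rfl fun k hk => by rw [GB_eq' hA hW hk], ]
  simp only [ite_mul, one_mul, zero_mul]
  rw [Finset.sum_ite_eq Lc n, if_pos hn]

/-- effective coupling of `y` to `k` through the box -/
noncomputable def tt (A : Matrix ι ι ℝ) (W : ι → ℂ) (Lc : Finset ι) (y k : ι) : ℂ :=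
  ∑ n ∈ Lc, ∑ n' ∈ Lc, (A y n : ℂ) * GB A W Lc n n' * (A n' k : ℂ)

/-- **row `y` of the effective matrix** -/
theorem row_y (hA : A.IsSymm) (hW : ∀ x, (W x).im < 0) {Lc : Finset ι} {y : ι} (hy : y ∉ Lc)
    (hny : ∀ k ∉ Lc, A y k = 0) {b : ι → ℂ}
    (hb : ∀ n ∈ Lc, (Kmat A W).mulVec b n = 0) :
    (Kmat A W).mulVec b y = (W y - tt A W Lc y y) * b y -
      ∑ k ∈ Lcᶜ.erase y, tt A W Lc y k * b k := by
  have hyc : y ∈ Lcᶜ := Finset.mem_compl.2 hy
  rw [Kmat_mulVec, ← Finset.sum_add_sum_compl Lc]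
  have h1 : ∑ k ∈ Lcᶜ, (A y k : ℂ) * b k = 0 :=
    Finset.sum_eq_zero fun k hk => by rw [hny k (Finset.mem_compl.1 hk)]; simp
  have h2 : ∑ n ∈ Lc, (A y n : ℂ) * b n = -∑ k ∈ Lcᶜ, tt A W Lc y k * b k := by
    have e1 : ∀ n ∈ Lc, (A y n : ℂ) * b n =
        -∑ k ∈ Lcᶜ, (∑ n' ∈ Lc, (A y n : ℂ) * GB A W Lc n n' * (A n' k : ℂ)) * b k := by
      intro n hn
      rw [inside hA hW hb hn, mul_neg]
      congr 1
      rw [Finset.mul_sum]
      simp only [Finset.sum_mul]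
      rw [Finset.sum_comm]
      refine Finset.sum_congr rfl fun n' _ => ?_
      rw [Finset.mul_sum, Finset.mul_sum]
      exact Finset.sum_congr rfl fun k _ => by ring
    rw [Finset.sum_congr rfl e1, Finset.sum_neg_distrib, Finset.sum_comm]
    congr 1
    refine Finset.sum_congr rfl fun k _ => ?_
    rw [tt, Finset.sum_mul]
  rw [h1, h2, ← Finset.add_sum_erase Lcᶜ _ hyc]
  ring

/-! ### uniqueness, dependence on `W` inside only -/

theorem GB_unique (hA : A.IsSymm) (hW : ∀ x, (W x).im < 0) {Lc : Finset ι} {v r : ι → ℂ}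
    (h : ∀ n ∈ Lc, ∑ k ∈ Lc, (A n k : ℂ) * v k + W n * v n = r n) {n : ι} (hn : n ∈ Lc) :
    v n = ∑ k ∈ Lc, GB A W Lc n k * r k := by
  rw [Finset.sum_congr rfl fun k hk => by rw [← h k hk]]
  have h2 : ∑ k ∈ Lc, GB A W Lc n k * (∑ j ∈ Lc, (A k j : ℂ) * v j + W k * v k) =
      ∑ j ∈ Lc, (∑ k ∈ Lc, GB A W Lc n k * (A k j : ℂ) + GB A W Lc n j * W j) * v j := by
    simp only [mul_add, add_mul, Finset.sum_add_distrib]
    congr 1
    · simp only [Finset.mul_sum, Finset.sum_mul]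
      rw [Finset.sum_comm]
      exact Finset.sum_congr rfl fun k _ => Finset.sum_congr rfl fun n' _ => by ring
    · exact Finset.sum_congr rfl fun n' _ => by ring
  rw [h2, Finset.sum_congr rfl fun k hk => by rw [GB_eq' hA hW hk]]
  simp only [ite_mul, one_mul, zero_mul]
  rw [Finset.sum_ite_eq Lc n, if_pos hn]

theorem GB_congr (hA : A.IsSymm) {W' : ι → ℂ} (hW : ∀ x, (W x).im < 0) (hW' : ∀ x, (W' x).im < 0)
    {Lc : Finset ι} (h : ∀ k ∈ Lc, W k = W' k) {n b : ι} (hn : n ∈ Lc) (hb : b ∈ Lc) :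
    GB A W' Lc n b = GB A W Lc n b := by
  have h1 := GB_unique (v := fun k => GB A W' Lc k b) (r := fun k => if k = b then 1 else 0)
    hA hW (Lc := Lc) (fun m hm => by rw [h m hm]; exact GB_eq hA hW' hm) hn
  refine Eq.trans h1 ?_
  simp only [mul_ite, mul_one, mul_zero]
  rw [Finset.sum_ite_eq' Lc b, if_pos hb]

theorem tt_congr (hA : A.IsSymm) {W' : ι → ℂ} (hW : ∀ x, (W x).im < 0) (hW' : ∀ x, (W' x).im < 0)
    {Lc : Finset ι} (h : ∀ k ∈ Lc, W k = W' k) (y k : ι) :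
    tt A W' Lc y k = tt A W Lc y k := by
  unfold tt
  exact Finset.sum_congr rfl fun n hn => Finset.sum_congr rfl fun n' hn' => by
    rw [GB_congr hA hW hW' h hn hn']

theorem tt_upd (hA : A.IsSymm) (hW : ∀ x, (W x).im < 0) {Lc : Finset ι} {z : ι} (hz : z ∉ Lc)
    {v : ℂ} (hv : v.im < 0) (y k : ι) :
    tt A (Function.update W z v) Lc y k = tt A W Lc y k := by
  refine tt_congr hA hW (update_neg hW hv) (fun j hj => ?_) y k
  have hjz : j ≠ z := fun h => hz (h ▸ hj)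
  rw [Function.update_of_ne hjz]

/-! ### comparison with a real frozen Green function -/

/-- real Green function of the box -/
structure RGreen (A : Matrix ι ι ℝ) (Lc : Finset ι) (U : ι → ℝ) (G : ι → ι → ℝ) : Prop where
  eq : ∀ n ∈ Lc, ∀ b ∈ Lc, ∑ k ∈ Lc, A n k * G k b + U n * G n b = if n = b then 1 else 0

/-- second resolvent identity -/
theorem GB_resolvent (hA : A.IsSymm) (hW : ∀ x, (W x).im < 0) {Lc : Finset ι} {U : ι → ℝ}
    {G : ι → ι → ℝ} (hG : RGreen A Lc U G) {n b : ι} (hn : n ∈ Lc) (hb : b ∈ Lc) :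
    GB A W Lc n b = (G n b : ℂ) -
      ∑ k ∈ Lc, GB A W Lc n k * ((W k - (U k : ℂ)) * (G k b : ℂ)) := by
  have h1 := GB_unique (v := fun k => (G k b : ℂ))
    (r := fun k => (if k = b then 1 else 0) + (W k - (U k : ℂ)) * (G k b : ℂ)) hA hW
    (Lc := Lc) (fun m hm => by
      have h := hG.eq m hm b hb
      have h2 : ((∑ k ∈ Lc, A m k * G k b + U m * G m b : ℝ) : ℂ) =
          if m = b then 1 else 0 := by
        rw [h]; split_ifs <;> simp
      push_cast at h2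
      rw [← h2]
      ring) hn
  simp only [mul_add, Finset.sum_add_distrib] at h1
  have h4 : ∑ k ∈ Lc, GB A W Lc n k * (if k = b then 1 else 0) = GB A W Lc n b := by
    simp only [mul_ite, mul_one, mul_zero]
    rw [Finset.sum_ite_eq' Lc b, if_pos hb]
  rw [h4] at h1
  rw [h1]
  ring

/-- **Neumann**: the complex Green matrix of the box for every potential `W` (windows AND
absorption) within `e0` of the frozen real potential `U` -/
theorem GB_bound (hA : A.IsSymm) (hW : ∀ x, (W x).im < 0) {Lc : Finset ι} {U : ι → ℝ}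
    {G : ι → ι → ℝ} (hG : RGreen A Lc U G) {C0 e0 : ℝ} {w : ι → ι → ℝ} (hC0 : 0 ≤ C0)
    (he0 : 0 ≤ e0) (hw : ∀ n ∈ Lc, ∀ b ∈ Lc, 0 < w n b)
    (hww : ∀ n ∈ Lc, ∀ k ∈ Lc, ∀ b ∈ Lc, w n k * w k b ≤ w n b)
    (hGw : ∀ n ∈ Lc, ∀ b ∈ Lc, |G n b| ≤ C0 * w n b)
    (he : ∀ x ∈ Lc, ‖W x - U x‖ ≤ e0) (hsm : e0 * C0 * (Lc.card : ℝ) ≤ 1 / 2) :
    ∀ n ∈ Lc, ∀ b ∈ Lc, ‖GB A W Lc n b‖ ≤ 2 * C0 * w n b ∧
      ‖GB A W Lc n b - G n b‖ ≤ 2 * C0 ^ 2 * e0 * (Lc.card : ℝ) * w n b := by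
  by_cases hne : Lc = ∅
  · subst hne; intro n hn; exact absurd hn (Finset.notMem_empty n)
  have hne' : Lc.Nonempty := Finset.nonempty_iff_ne_empty.2 hne
  obtain ⟨q, hq, hmax⟩ := Finset.exists_max_image (Lc ×ˢ Lc)
    (fun q => ‖GB A W Lc q.1 q.2‖ / w q.1 q.2) (hne'.product hne')
  set N := ‖GB A W Lc q.1 q.2‖ / w q.1 q.2 with hN
  obtain ⟨hq1, hq2⟩ := Finset.mem_product.1 hq
  have hN0 : 0 ≤ N := div_nonneg (norm_nonneg _) (hw _ hq1 _ hq2).le
  have hle : ∀ n ∈ Lc, ∀ b ∈ Lc, ‖GB A W Lc n b‖ ≤ N * w n b := by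
    intro n hn b hb
    have := hmax (n, b) (Finset.mem_product.2 ⟨hn, hb⟩)
    rwa [div_le_iff₀ (hw n hn b hb)] at this
  have hdiff : ∀ n ∈ Lc, ∀ b ∈ Lc, ‖GB A W Lc n b - G n b‖ ≤
      N * C0 * e0 * (Lc.card : ℝ) * w n b := by
    intro n hn b hb
    rw [GB_resolvent hA hW hG hn hb, sub_sub_cancel_left, norm_neg]
    refine (norm_sum_le _ _).trans ?_
    have h1 : ∀ k ∈ Lc, ‖GB A W Lc n k * ((W k - (U k : ℂ)) * (G k b : ℂ))‖ ≤
        N * C0 * e0 * w n b := by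
      intro k hk
      rw [norm_mul, norm_mul, Complex.norm_real (G k b), Real.norm_eq_abs]
      have h2 := hle n hn k hk
      have h3 := hGw k hk b hb
      have h4 := hww n hn k hk b hb
      have h5 := (hw n hn k hk).le
      have h6 := (hw k hk b hb).le
      have h7 := he k hk
      calc ‖GB A W Lc n k‖ * (‖W k - (U k : ℂ)‖ * |G k b|)
          ≤ (N * w n k) * (e0 * (C0 * w k b)) := by gcongr
        _ = N * C0 * e0 * (w n k * w k b) := by ring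
        _ ≤ N * C0 * e0 * w n b := by gcongr
    refine (Finset.sum_le_sum h1).trans (le_of_eq ?_)
    rw [Finset.sum_const, nsmul_eq_mul]
    ring
  have hN2 : N ≤ 2 * C0 := by
    have h1 := hdiff q.1 hq1 q.2 hq2
    have h2 := hGw q.1 hq1 q.2 hq2
    have h3 : ‖GB A W Lc q.1 q.2‖ ≤ ‖GB A W Lc q.1 q.2 - G q.1 q.2‖ + |G q.1 q.2| := by
      have := norm_add_le (GB A W Lc q.1 q.2 - G q.1 q.2) (G q.1 q.2 : ℂ)
      rw [sub_add_cancel, Complex.norm_real, Real.norm_eq_abs] at this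
      exact this
    have h4 : ‖GB A W Lc q.1 q.2‖ = N * w q.1 q.2 := by
      rw [hN, div_mul_cancel₀ _ (hw _ hq1 _ hq2).ne']
    have h5 := hw q.1 hq1 q.2 hq2
    have h6 : N * w q.1 q.2 ≤ (N * (e0 * C0 * (Lc.card : ℝ)) + C0) * w q.1 q.2 := by
      rw [← h4]; nlinarith
    have h7 := le_of_mul_le_mul_right h6 h5
    have h8 : N * (e0 * C0 * (Lc.card : ℝ)) ≤ N * (1 / 2) := mul_le_mul_of_nonneg_left hsm hN0
    linarith
  intro n hn b hb
  have h5 := (hw n hn b hb).le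
  refine ⟨(hle n hn b hb).trans (mul_le_mul_of_nonneg_right hN2 h5), (hdiff n hn b hb).trans ?_⟩
  have h9 : 0 ≤ C0 * e0 * (Lc.card : ℝ) * w n b := by positivity
  calc N * C0 * e0 * (Lc.card : ℝ) * w n b = N * (C0 * e0 * (Lc.card : ℝ) * w n b) := by ring
    _ ≤ (2 * C0) * (C0 * e0 * (Lc.card : ℝ) * w n b) := mul_le_mul_of_nonneg_right hN2 h9
    _ = _ := by ring

/-- double row sum -/
theorem dsum_le (hA : A.IsSymm) (hdeg : ∀ x, ∑ z, |A x z| ≤ 4) {Lc : Finset ι} {y k : ι}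
    {H : ι → ι → ℂ} {c : ℝ} (hc : 0 ≤ c)
    (hH : ∀ n ∈ Lc, ∀ n' ∈ Lc, A y n ≠ 0 → A n' k ≠ 0 → ‖H n n'‖ ≤ c) :
    ‖∑ n ∈ Lc, ∑ n' ∈ Lc, (A y n : ℂ) * H n n' * (A n' k : ℂ)‖ ≤ 16 * c := by
  have h1 : ‖∑ n ∈ Lc, ∑ n' ∈ Lc, (A y n : ℂ) * H n n' * (A n' k : ℂ)‖ ≤
      ∑ n ∈ Lc, ∑ n' ∈ Lc, |A y n| * (c * |A k n'|) := by
    refine (norm_sum_le _ _).trans (Finset.sum_le_sum fun n hn => ?_)
    refine (norm_sum_le _ _).trans (Finset.sum_le_sum fun n' hn' => ?_)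
    rw [norm_mul, norm_mul, Complex.norm_real, Complex.norm_real, Real.norm_eq_abs,
      Real.norm_eq_abs, hA.apply k n', mul_assoc]
    by_cases h1 : A y n = 0
    · rw [h1]; simp
    by_cases h2 : A k n' = 0
    · rw [h2]; simp
    have := hH n hn n' hn' h1 (by rw [hA.apply k n']; exact h2)
    gcongr
  refine h1.trans ?_
  have h2 : ∑ n ∈ Lc, ∑ n' ∈ Lc, |A y n| * (c * |A k n'|) =
      c * ((∑ n ∈ Lc, |A y n|) * ∑ n' ∈ Lc, |A k n'|) := by
    rw [Finset.sum_mul_sum, Finset.mul_sum]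
    refine Finset.sum_congr rfl fun n _ => ?_
    rw [Finset.mul_sum]
    exact Finset.sum_congr rfl fun n' _ => by ring
  rw [h2]
  have h3 : ∑ n ∈ Lc, |A y n| ≤ 4 :=
    (Finset.sum_le_sum_of_subset_of_nonneg (Finset.subset_univ _) fun _ _ _ =>
      abs_nonneg _).trans (hdeg y)
  have h4 : ∑ n' ∈ Lc, |A k n'| ≤ 4 :=
    (Finset.sum_le_sum_of_subset_of_nonneg (Finset.subset_univ _) fun _ _ _ =>
      abs_nonneg _).trans (hdeg k)
  have h5 : (∑ n ∈ Lc, |A y n|) * ∑ n' ∈ Lc, |A k n'| ≤ 4 * 4 :=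
    mul_le_mul h3 h4 (Finset.sum_nonneg fun _ _ => abs_nonneg _) (by norm_num)
  calc c * ((∑ n ∈ Lc, |A y n|) * ∑ n' ∈ Lc, |A k n'|) ≤ c * (4 * 4) :=
        mul_le_mul_of_nonneg_left h5 hc
    _ = 16 * c := by ring

/-- the coupling is small when the box Green function decays -/
theorem tt_le (hA : A.IsSymm) (hdeg : ∀ x, ∑ z, |A x z| ≤ 4) {Lc : Finset ι} {y k : ι} {c : ℝ}
    (hc : 0 ≤ c)
    (hH : ∀ n ∈ Lc, ∀ n' ∈ Lc, A y n ≠ 0 → A n' k ≠ 0 → ‖GB A W Lc n n'‖ ≤ c) :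
    ‖tt A W Lc y k‖ ≤ 16 * c := dsum_le hA hdeg hc hH

/-- the self-energy of the centre is close to the real frozen one -/
theorem tt_self_close (hA : A.IsSymm) (hdeg : ∀ x, ∑ z, |A x z| ≤ 4) {Lc : Finset ι} {y : ι}
    {G : ι → ι → ℝ} {c : ℝ} (hc : 0 ≤ c)
    (hH : ∀ n ∈ Lc, ∀ n' ∈ Lc, ‖GB A W Lc n n' - G n n'‖ ≤ c) :
    ‖tt A W Lc y y - ((∑ n ∈ Lc, ∑ n' ∈ Lc, A y n * G n n' * A n' y : ℝ) : ℂ)‖ ≤ 16 * c := by
  have h1 : tt A W Lc y y - ((∑ n ∈ Lc, ∑ n' ∈ Lc, A y n * G n n' * A n' y : ℝ) : ℂ) =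
      ∑ n ∈ Lc, ∑ n' ∈ Lc, (A y n : ℂ) * (GB A W Lc n n' - G n n') * (A n' y : ℂ) := by
    rw [tt]
    push_cast
    rw [← Finset.sum_sub_distrib]
    refine Finset.sum_congr rfl fun n _ => ?_
    rw [← Finset.sum_sub_distrib]
    exact Finset.sum_congr rfl fun n' _ => by ring
  rw [h1]
  exact dsum_le hA hdeg hc fun n hn n' hn' _ _ => hH n hn n' hn'

/-- no coupling except to the ports -/
theorem tt_zero {Lc : Finset ι} {y k : ι} (hk : ∀ n' ∈ Lc, A n' k = 0) : tt A W Lc y k = 0 := by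
  unfold tt
  exact Finset.sum_eq_zero fun n _ => Finset.sum_eq_zero fun n' hn' => by rw [hk n' hn']; simp

end H417

end P365T1
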