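import Vale.Agent.P365.SH.Thm
import Vale.Agent.P365.ISL.Link77
import Vale.Agent.P365.H417.Link

/-!
# P365-T1, ISL: from the shield to the block of a cell in a whole system

For a cell whose (complex) potentials are within `u` of a real potential `V - E`, `V` in the
windows of `P365SH.shield`, the effective couplings `tt` from the centre to the outside of the
cell are exponentially small and the self-energy `tt y y` of the centre through the cell is close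
to a real number `s`, which depends on `V` only, with `|s + E| ≤ lam'`.  The same for the block
`KC` of `P365T1.Link.MP_row`.
-/

set_option linter.all false

namespace P365T1.H417

open P365L P365O P365T1 P365T1.Link Matrix Complex Vale.Agent.P365.C937 P365SH
open scoped ComplexConjugate

section Abs

variable {C : Type*} [Fintype C] [DecidableEq C]

/-- double sums with short rows -/
theorem dsumC_le {l r : C → ℝ} {G : Matrix C C ℂ} {c : ℝ} (hc : 0 ≤ c)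
    (h : ∀ a b, l a ≠ 0 → r b ≠ 0 → ‖G a b‖ ≤ c) (hl : ∑ a, |l a| ≤ 4) (hr : ∑ b, |r b| ≤ 4) :
    ‖∑ a, ∑ b, (l a : ℂ) * G a b * (r b : ℂ)‖ ≤ 16 * c := by
  have h1 : ∀ a b, ‖(l a : ℂ) * G a b * (r b : ℂ)‖ ≤ |l a| * |r b| * c := by
    intro a b
    rw [norm_mul, norm_mul, Complex.norm_real, Complex.norm_real, Real.norm_eq_abs,
      Real.norm_eq_abs]
    by_cases ha : l a = 0
    · rw [ha]; simp
    by_cases hb : r b = 0
    · rw [hb]; simp
    have h2 := h a b ha hb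
    calc |l a| * ‖G a b‖ * |r b| ≤ |l a| * c * |r b| := by gcongr
      _ = _ := by ring
  calc ‖∑ a, ∑ b, (l a : ℂ) * G a b * (r b : ℂ)‖
      ≤ ∑ a, ‖∑ b, (l a : ℂ) * G a b * (r b : ℂ)‖ := norm_sum_le _ _
    _ ≤ ∑ a, ∑ b, ‖(l a : ℂ) * G a b * (r b : ℂ)‖ :=
        Finset.sum_le_sum fun a _ => norm_sum_le _ _
    _ ≤ ∑ a, ∑ b, |l a| * |r b| * c :=
        Finset.sum_le_sum fun a _ => Finset.sum_le_sum fun b _ => h1 a b
    _ = (∑ a, |l a|) * (∑ b, |r b|) * c := by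
        rw [Finset.sum_mul_sum, Finset.sum_mul]
        exact Finset.sum_congr rfl fun a _ => by rw [Finset.sum_mul]
    _ ≤ 4 * 4 * c := by
        have e1 : 0 ≤ ∑ b, |r b| := Finset.sum_nonneg fun _ _ => abs_nonneg _
        gcongr
    _ = 16 * c := by ring

/-- difference of the inverses in a window -/
theorem inv_diff {M : Matrix C C ℂ} (hM : IsUnit M) {C₀ u : ℝ} (hC : 0 < C₀)
    (hu : 0 ≤ u) (hB : ∀ x b, ‖M⁻¹ x b‖ ≤ C₀) {U : C → ℂ} (hU : ∀ x, ‖U x‖ ≤ u)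
    (hM2 : IsUnit (M + diagonal U)) (hB2 : ∀ x b, ‖(M + diagonal U)⁻¹ x b‖ ≤ 2 * C₀) (x b : C) :
    ‖(M + diagonal U)⁻¹ x b - M⁻¹ x b‖ ≤ Fintype.card C * (C₀ * (u * (2 * C₀))) := by
  have h1 : M⁻¹ * M = 1 := nonsing_inv_mul _ ((isUnit_iff_isUnit_det _).mp hM)
  have h2 : (M + diagonal U) * (M + diagonal U)⁻¹ = 1 :=
    mul_nonsing_inv _ ((isUnit_iff_isUnit_det _).mp hM2)
  have h3 : M⁻¹ * ((M + diagonal U) * (M + diagonal U)⁻¹) = M⁻¹ := by rw [h2, mul_one]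
  rw [add_mul, mul_add, ← mul_assoc, h1, one_mul] at h3
  have h4 := congrFun (congrFun h3 x) b
  rw [Matrix.add_apply, mul_apply] at h4
  simp_rw [diagonal_mul] at h4
  have h5 : (M + diagonal U)⁻¹ x b - M⁻¹ x b =
      - ∑ z, M⁻¹ x z * (U z * (M + diagonal U)⁻¹ z b) := by
    rw [← h4]; ring
  rw [h5, norm_neg]
  calc ‖∑ z, M⁻¹ x z * (U z * (M + diagonal U)⁻¹ z b)‖
      ≤ ∑ z, ‖M⁻¹ x z * (U z * (M + diagonal U)⁻¹ z b)‖ := norm_sum_le _ _
    _ ≤ ∑ _z : C, C₀ * (u * (2 * C₀)) := by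
        apply Finset.sum_le_sum
        intro z _
        rw [norm_mul, norm_mul]
        have e1 := hB x z
        have e2 := hU z
        have e3 := hB2 z b
        gcongr
    _ = _ := by rw [Finset.sum_const, Finset.card_univ, nsmul_eq_mul]

theorem isUnit_mapC {M : Matrix C C ℝ} (hM : IsUnit M) : IsUnit (M.map (fun r => (r : ℂ))) :=
  hM.map (RingHom.mapMatrix Complex.ofRealHom)

theorem inv_mapC {M : Matrix C C ℝ} (hM : IsUnit M) :
    (M.map (fun r => (r : ℂ)))⁻¹ = M⁻¹.map (fun r => (r : ℂ)) := by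
  apply Matrix.inv_eq_right_inv
  have h1 : M * M⁻¹ = 1 := mul_nonsing_inv _ ((isUnit_iff_isUnit_det _).mp hM)
  have h2 := congrArg (RingHom.mapMatrix Complex.ofRealHom) h1
  rw [map_mul, map_one] at h2
  exact h2

end Abs

section Box

variable {ι : Type*} [Fintype ι] [DecidableEq ι] {A : Matrix ι ι ℝ} {W : ι → ℂ}
variable {r : ℕ} {V : ℤ × ℤ → ℝ} {E : ℝ} {y : Xr r} {φ : ℤ × ℤ → ι}

/-- the sites of the cell without the centre -/
def ecX (φ : ℤ × ℤ → ι) (y : Xr r) : {x : Xr r // x ≠ y} → ι := fun a => φ (a : Xr r)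

theorem ecX_inj (hφ : Set.InjOn φ (Xr r)) : Function.Injective (ecX φ y) := by
  intro a b hab
  apply Subtype.ext
  apply Subtype.ext
  exact hφ a.1.2 b.1.2 hab

/-- the cell without the centre -/
noncomputable def LcX (φ : ℤ × ℤ → ι) (y : Xr r) : Finset ι := Finset.univ.image (ecX φ y)

theorem mem_LcX {x : ι} : x ∈ LcX φ y ↔ ∃ a : Xr r, a ≠ y ∧ φ a = x := by
  rw [LcX, Finset.mem_image]
  constructor
  · rintro ⟨a, -, h⟩
    exact ⟨a.1, a.2, h⟩
  · rintro ⟨a, ha, h⟩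
    exact ⟨⟨a, ha⟩, Finset.mem_univ _, h⟩

theorem not_mem_LcX (hφ : Set.InjOn φ (Xr r)) : φ y ∉ LcX φ y := by
  rw [mem_LcX]
  rintro ⟨a, ha, h⟩
  exact ha (Subtype.ext (hφ a.2 y.2 h))

/-- the Green matrix of the cell is the inverse of the block -/
theorem GB_eq_KC {C : Type*} [Fintype C] [DecidableEq C] {ec : C → ι} (hA : A.IsSymm)
    (hW : ∀ x, (W x).im < 0) (hec : Function.Injective ec) (a b : C) :
    GB A W (Finset.univ.image ec) (ec a) (ec b) = (KC A W ec)⁻¹ a b := by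
  have h1 : KC A W ec * Matrix.of (fun a b => GB A W (Finset.univ.image ec) (ec a) (ec b)) =
      1 := by
    ext a b
    have h2 := GB_eq hA hW (Lc := Finset.univ.image ec) (b := ec b)
      (Finset.mem_image_of_mem ec (Finset.mem_univ a))
    rw [Finset.sum_image (fun x _ y _ h => hec h)] at h2
    rw [Matrix.mul_apply, Matrix.one_apply, ← show (if ec a = ec b then (1 : ℂ) else 0) =
      if a = b then 1 else 0 by simp only [hec.eq_iff], ← h2]
    have h3 : ∀ c, KC A W ec a c * GB A W (Finset.univ.image ec) (ec c) (ec b) =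
        (A (ec a) (ec c) : ℂ) * GB A W (Finset.univ.image ec) (ec c) (ec b) +
          if a = c then W (ec a) * GB A W (Finset.univ.image ec) (ec c) (ec b) else 0 := by
      intro c
      rw [KC, Matrix.submatrix_apply, Kmat, Matrix.add_apply, Matrix.map_apply,
        Matrix.diagonal_apply]
      simp only [hec.eq_iff]
      split_ifs <;> ring
    simp only [Matrix.of_apply, h3, Finset.sum_add_distrib, Finset.sum_ite_eq, Finset.mem_univ,
      if_true]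
  rw [Matrix.inv_eq_right_inv h1, Matrix.of_apply]

theorem tt_eq_KC {C : Type*} [Fintype C] [DecidableEq C] {ec : C → ι} (hA : A.IsSymm)
    (hW : ∀ x, (W x).im < 0) (hec : Function.Injective ec) (y k : ι) :
    tt A W (Finset.univ.image ec) y k =
      ∑ a, ∑ b, (A y (ec a) : ℂ) * (KC A W ec)⁻¹ a b * (A (ec b) k : ℂ) := by
  rw [tt, Finset.sum_image (fun x _ y _ h => hec h)]
  refine Finset.sum_congr rfl fun a _ => ?_
  rw [Finset.sum_image (fun x _ y _ h => hec h)]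
  exact Finset.sum_congr rfl fun b _ => by rw [GB_eq_KC hA hW hec]

/-- the block of the cell is the real block plus a diagonal perturbation -/
theorem KC_eq (hφ : Set.InjOn φ (Xr r)) (hAX : ∀ a b : Xr r, A (φ a) (φ b) = AX (Xr r) a b) :
    KC A W (ecX φ y) = (HXy r V E y).map (fun r => (r : ℂ)) +
      Matrix.diagonal (fun a : {x : Xr r // x ≠ y} =>
        W (φ a.1) - ((V (a : Xr r) - E : ℝ) : ℂ)) := by
  ext a b
  rw [KC, Matrix.submatrix_apply, Kmat, Matrix.add_apply, Matrix.map_apply,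
    Matrix.add_apply, Matrix.map_apply, HXy, Matrix.submatrix_apply, HX, Matrix.add_apply]
  have h1 : A (ecX φ y a) (ecX φ y b) = AX (Xr r) a b := hAX _ _
  rw [h1]
  by_cases hab : a = b
  · subst hab
    rw [Matrix.diagonal_apply_eq, Matrix.diagonal_apply_eq, Matrix.diagonal_apply_eq]
    have h2 : W (ecX φ y a) = W (φ a.1) := rfl
    rw [h2]
    push_cast
    ring
  · rw [Matrix.diagonal_apply_ne _ (fun h => hab (ecX_inj hφ h)), Matrix.diagonal_apply_ne _ hab,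
      Matrix.diagonal_apply_ne _ (fun h => hab (Subtype.ext h))]
    push_cast
    ring

theorem card_le : (Fintype.card {x : Xr r // x ≠ y} : ℝ) ≤ (2 * (r : ℝ) + 1) ^ 2 := by
  have h1 : Fintype.card {x : Xr r // x ≠ y} ≤ Fintype.card (Xr r) := Fintype.card_subtype_le _
  have h2 : Fintype.card (Xr r) = (2 * r + 1) * (2 * r + 1) := by
    rw [Fintype.card_congr (eX r), Fintype.card_prod, Fintype.card_fin]
  have h3 : (Fintype.card {x : Xr r // x ≠ y} : ℝ) ≤ (((2 * r + 1) * (2 * r + 1) : ℕ) : ℝ) := by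
    rw [← h2]
    exact_mod_cast h1
  refine h3.trans (le_of_eq ?_)
  push_cast
  ring

/-- row sums over the cell -/
theorem row_ec (hφ : Set.InjOn φ (Xr r)) (h4 : ∀ x, ∑ z, |A x z| ≤ 4) (x : ι) :
    ∑ a, |A x (ecX φ y a)| ≤ 4 := by
  refine le_trans ?_ (h4 x)
  have h1 : ∑ a, |A x (ecX φ y a)| =
      ∑ z ∈ Finset.univ.map ⟨ecX φ y, ecX_inj hφ⟩, |A x z| := by
    rw [Finset.sum_map]; rfl
  rw [h1]
  exact Finset.sum_le_sum_of_subset_of_nonneg (Finset.subset_univ _) fun _ _ _ => abs_nonneg _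

/-- **the cell block, abstract form** -/
theorem cell_core {κ u : ℝ} {m R0 : ℕ} (hκ : 0 < κ) (hκ1 : κ < 1)
    (hy1 : |(y : ℤ × ℤ).1| < R0) (hy2 : |(y : ℤ × ℤ).2| < R0)
    (hU : IsUnit (HXy r V E y))
    (hdec : ∀ x b : {x : Xr r // x ≠ y}, |(HXy r V E y)⁻¹ x b| ≤
      (2 * (r : ℝ) + 1) ^ m * κ ^ dist8 (x : Xr r) (b : Xr r))
    (hA : A.IsSymm) (h4 : ∀ x, ∑ z, |A x z| ≤ 4)
    (hφ : Set.InjOn φ (Xr r)) (hAX : ∀ a b : Xr r, A (φ a) (φ b) = AX (Xr r) a b)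
    (hout : ∀ a : Xr r, max (a : ℤ × ℤ).1.natAbs (a : ℤ × ℤ).2.natAbs < r →
      ∀ z, z ∉ φ '' (Xr r) → A (φ a) z = 0)
    (hV : ∀ a : Xr r, a ≠ y → ‖W (φ a) - ((V a - E : ℝ) : ℂ)‖ ≤ u)
    (hsmall : 2 * u * (2 * (r : ℝ) + 1) ^ (m + 2) ≤ 1) (hu0 : 0 ≤ u) :
    IsUnit (KC A W (ecX φ y)).det ∧
    (∀ z, z ∉ φ '' (Xr r) →
      ‖∑ a, ∑ b, (A (φ y) (ecX φ y a) : ℂ) * (KC A W (ecX φ y))⁻¹ a b *
        (A (ecX φ y b) z : ℂ)‖ ≤ 32 * (2 * (r : ℝ) + 1) ^ m * κ ^ (r - R0)) ∧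
      ‖∑ a, ∑ b, (A (φ y) (ecX φ y a) : ℂ) * (KC A W (ecX φ y))⁻¹ a b *
        (A (ecX φ y b) (φ y) : ℂ) - ((sE r V E y - E : ℝ) : ℂ)‖ ≤
          32 * (2 * (r : ℝ) + 1) ^ (2 * m + 2) * u := by
  set n : ℝ := 2 * (r : ℝ) + 1 with hn
  have hn1 : 1 ≤ n := by
    have : (0 : ℝ) ≤ r := Nat.cast_nonneg r
    linarith
  have hn0 : 0 < n := by linarith
  set C₀ : ℝ := n ^ m with hC₀
  have hC : 0 < C₀ := by positivity
  set M : Matrix {x : Xr r // x ≠ y} {x : Xr r // x ≠ y} ℂ :=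
    (HXy r V E y).map (fun r => (r : ℂ)) with hM
  have hMU : IsUnit M := isUnit_mapC hU
  have hMinv : ∀ a b, M⁻¹ a b = (((HXy r V E y)⁻¹ a b : ℝ) : ℂ) := by
    intro a b
    rw [hM, inv_mapC hU, Matrix.map_apply]
  set U : {x : Xr r // x ≠ y} → ℂ := fun a => W (φ a.1) - ((V (a : Xr r) - E : ℝ) : ℂ) with hUdef
  have hUn : ∀ a, ‖U a‖ ≤ u := fun a => hV a.1 a.2
  have hMB : ∀ a b, ‖M⁻¹ a b‖ ≤ C₀ * κ ^ dist8 (a : Xr r) (b : Xr r) := by
    intro a b
    rw [hMinv, Complex.norm_real, Real.norm_eq_abs]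
    exact hdec a b
  have hcard : (Fintype.card {x : Xr r // x ≠ y} : ℝ) ≤ n ^ 2 := card_le
  have hκp : ∀ j : ℕ, 0 < κ ^ j := fun j => pow_pos hκ j
  have hκ1' : ∀ j : ℕ, κ ^ j ≤ 1 := fun j => pow_le_one₀ hκ.le hκ1.le
  obtain ⟨hu, hb⟩ := window hMU (w := fun a b => κ ^ dist8 (a : Xr r) (b : Xr r))
    (fun a b => hκp _) (fun a b => hκ1' _)
    (fun a c b => by
      simp only [← pow_add]
      exact pow_le_pow_of_le_one hκ.le hκ1.le (dist8_tri _ _ _)) hC hu0 hMB hUn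
    (by
      calc (Fintype.card {x : Xr r // x ≠ y} : ℝ) * (C₀ * u) ≤ n ^ 2 * (C₀ * u) := by gcongr
        _ = (2 * u * n ^ (m + 2)) / 2 := by rw [hC₀, pow_add]; ring
        _ ≤ 1 / 2 := by linarith)
  have hK : KC A W (ecX φ y) = M + Matrix.diagonal U := KC_eq hφ hAX
  have hrow := row_ec (y := y) hφ h4
  have hcol : ∀ x, ∑ b, |A (ecX φ y b) x| ≤ 4 := by
    intro x
    have h1 := hrow x
    refine le_trans (le_of_eq ?_) h1
    exact Finset.sum_congr rfl fun b _ => by rw [hA.apply]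
  refine ⟨?_, ?_, ?_⟩
  · rw [hK]
    exact (isUnit_iff_isUnit_det _).mp hu
  · intro z hz
    have h1 := dsumC_le (l := fun a => A (φ y) (ecX φ y a)) (r := fun b => A (ecX φ y b) z)
      (G := (KC A W (ecX φ y))⁻¹) (c := 2 * C₀ * κ ^ (r - R0)) (by positivity) ?_ (hrow _)
      (hcol z)
    · refine h1.trans (le_of_eq ?_)
      ring
    · intro a b ha hb'
      rw [hK]
      refine (hb a b).trans ?_
      have h2 : r - R0 ≤ dist8 (a : Xr r) (b : Xr r) := by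
        have h3 : AX (Xr r) y a ≠ 0 := by rwa [← hAX y a]
        have h4' : ((y : ℤ × ℤ).1 - (a : Xr r).1.1).natAbs +
            ((y : ℤ × ℤ).2 - (a : Xr r).1.2).natAbs = 1 := by
          by_contra h5
          exact h3 (by rw [AX, adjw, if_neg h5])
        have h5 : ¬ max ((b : Xr r) : ℤ × ℤ).1.natAbs ((b : Xr r) : ℤ × ℤ).2.natAbs < r := by
          intro h6
          exact hb' (hout b.1 h6 z hz)
        have h8 := abs_lt.1 hy1
        have h9 := abs_lt.1 hy2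
        unfold dist8
        omega
      have h3 : κ ^ dist8 (a : Xr r) (b : Xr r) ≤ κ ^ (r - R0) :=
        pow_le_pow_of_le_one hκ.le hκ1.le h2
      gcongr
  · have hA1 : ∀ a : {x : Xr r // x ≠ y}, A (φ y) (ecX φ y a) = AX (Xr r) y a := fun a => hAX _ _
    have hA2 : ∀ a : {x : Xr r // x ≠ y}, A (ecX φ y a) (φ y) = AX (Xr r) a y := fun a => hAX _ _
    have h1 : ((sE r V E y - E : ℝ) : ℂ) = ∑ a : {x : Xr r // x ≠ y},
        ∑ b : {x : Xr r // x ≠ y}, (A (φ y) (ecX φ y a) : ℂ) * M⁻¹ a b *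
          (A (ecX φ y b) (φ y) : ℂ) := by
      rw [sE, add_sub_cancel_left]
      push_cast
      refine Finset.sum_congr rfl fun a _ => Finset.sum_congr rfl fun b _ => ?_
      rw [hMinv, hA1, hA2]
    rw [h1, ← Finset.sum_sub_distrib]
    have h2 : ∀ a : {x : Xr r // x ≠ y}, (∑ b, (A (φ y) (ecX φ y a) : ℂ) *
          (KC A W (ecX φ y))⁻¹ a b * (A (ecX φ y b) (φ y) : ℂ)) -
        ∑ b, (A (φ y) (ecX φ y a) : ℂ) * M⁻¹ a b * (A (ecX φ y b) (φ y) : ℂ) =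
        ∑ b, (A (φ y) (ecX φ y a) : ℂ) * ((KC A W (ecX φ y))⁻¹ - M⁻¹) a b *
          (A (ecX φ y b) (φ y) : ℂ) := by
      intro a
      rw [← Finset.sum_sub_distrib]
      refine Finset.sum_congr rfl fun b _ => ?_
      rw [Matrix.sub_apply]
      ring
    rw [Finset.sum_congr rfl fun a _ => h2 a]
    have h3 := dsumC_le (l := fun a => A (φ y) (ecX φ y a)) (r := fun b => A (ecX φ y b) (φ y))
      (G := (KC A W (ecX φ y))⁻¹ - M⁻¹) (c := n ^ 2 * (C₀ * (u * (2 * C₀)))) (by positivity) ?_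
      (hrow _) (hcol _)
    · refine h3.trans (le_of_eq ?_)
      rw [hC₀, pow_add, mul_comm 2 m, pow_mul]
      ring
    · intro a b _ _
      rw [Matrix.sub_apply, hK]
      refine (inv_diff hMU hC hu0 (fun x b => (hMB x b).trans ?_) hUn hu
        (fun x b => (hb x b).trans ?_) a b).trans ?_
      · have := hκ1' (dist8 (x : Xr r) (b : Xr r))
        nlinarith
      · have := hκ1' (dist8 (x : Xr r) (b : Xr r))
        nlinarith
      · gcongr

/-- `φ` embeds the box `[-r, r]²` in the graph `A`: the sites with `|a|_∞ < r` have no neighbours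
outside the image of the box -/
structure BoxEmb (A : Matrix ι ι ℝ) (r : ℕ) (φ : ℤ × ℤ → ι) : Prop where
  symm : A.IsSymm
  deg : ∀ x, ∑ z, |A x z| ≤ 4
  inj : Set.InjOn φ (Xr r)
  adj : ∀ a b : Xr r, A (φ a) (φ b) = AX (Xr r) a b
  out : ∀ a : Xr r, max (a : ℤ × ℤ).1.natAbs (a : ℤ × ℤ).2.natAbs < r →
    ∀ z, z ∉ φ '' (Xr r) → A (φ a) z = 0

end Box

/-- **CELL_OF_SHIELD.**  `y` = centre of the cell, `V` = any real potential in the windows (for
example `Vs`); `W` any configuration within `u` of `V - E` on the cell without its centre.  The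
self-energy of the centre through the cell is close to the real number `sE r V E y - E`, which
depends on `V` only. -/
theorem cell_of_shield {lam E : ℝ} (hlam : 0 < lam) (hE : |E| < 4 + lam) :
    ∃ (κ lam' : ℝ) (m R0 r0 : ℕ), 0 < κ ∧ κ < 1 ∧ 0 < lam' ∧ lam' < lam ∧
      ∀ r : ℕ, r0 ≤ r → ∃ (Vs : ℤ × ℤ → ℝ) (y : Xr r),
        |(y : ℤ × ℤ).1| < R0 ∧ |(y : ℤ × ℤ).2| < R0 ∧ (∀ x, |Vs x| ≤ lam') ∧
        ∀ V : ℤ × ℤ → ℝ, (∀ a : Xr r, a ≠ y → |V a - Vs a| ≤ ((2 * (r : ℝ) + 1) ^ m)⁻¹) →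
          |sE r V E y| ≤ lam' ∧
          ∀ (ι : Type) [Fintype ι] [DecidableEq ι] (A : Matrix ι ι ℝ) (W : ι → ℂ)
            (φ : ℤ × ℤ → ι) (u : ℝ), BoxEmb A r φ → (∀ x, (W x).im < 0) →
            (∀ a : Xr r, a ≠ y → ‖W (φ a) - ((V a - E : ℝ) : ℂ)‖ ≤ u) →
            2 * u * (2 * (r : ℝ) + 1) ^ (m + 2) ≤ 1 → 0 ≤ u →
            (∀ z, z ∉ φ '' (Xr r) →
              ‖tt A W (LcX φ y) (φ y) z‖ ≤ 32 * (2 * (r : ℝ) + 1) ^ m * κ ^ (r - R0)) ∧
            ‖tt A W (LcX φ y) (φ y) (φ y) - ((sE r V E y - E : ℝ) : ℂ)‖ ≤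
              32 * (2 * (r : ℝ) + 1) ^ (2 * m + 2) * u := by
  obtain ⟨κ, lam', m, R0, r0, hκ, hκ1, hl0, hl1, h⟩ := shield hlam hE
  refine ⟨κ, lam', m, R0, r0, hκ, hκ1, hl0, hl1, fun r hr => ?_⟩
  obtain ⟨Vs, y, hy1, hy2, hVs, hw⟩ := h r hr
  refine ⟨Vs, y, hy1, hy2, hVs, fun V hwin => ?_⟩
  obtain ⟨g1, g2, g3, -⟩ := hw V hwin
  refine ⟨g3, ?_⟩
  intro ι _ _ A W φ u hB hW hV hsmall hu0
  obtain ⟨-, h2, h3⟩ := cell_core hκ hκ1 hy1 hy2 g1 g2 hB.symm hB.deg hB.inj hB.adj hB.out hV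
    hsmall hu0
  have h4 : ∀ k, tt A W (LcX φ y) (φ y) k = ∑ a, ∑ b, (A (φ y) (ecX φ y a) : ℂ) *
      (KC A W (ecX φ y))⁻¹ a b * (A (ecX φ y b) k : ℂ) :=
    fun k => tt_eq_KC hB.symm hW (ecX_inj hB.inj) (φ y) k
  exact ⟨fun z hz => by rw [h4]; exact h2 z hz, by rw [h4]; exact h3⟩

/-- the bound on `W` from its real part and its absorption -/
theorem norm_sub_le_of_im {w : ℂ} {x e0 : ℝ} (hre : w.re = x) (him : w.im < 0)
    (he : -w.im ≤ e0) : ‖w - (x : ℂ)‖ ≤ e0 := by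
  have h2 : w - (x : ℂ) = (w.im : ℂ) * I := by
    rw [← hre]
    nth_rewrite 1 [← Complex.re_add_im w]
    ring
  rw [h2, norm_mul, Complex.norm_I, mul_one, Complex.norm_real, Real.norm_eq_abs, abs_le]
  exact ⟨by linarith, by linarith⟩

/-- the same with a window: `|w.re - x| ≤ w0`, `0 < -w.im ≤ e0` -/
theorem norm_sub_le_of_window {w : ℂ} {x w0 e0 : ℝ} (hre : |w.re - x| ≤ w0) (him : w.im < 0)
    (he : -w.im ≤ e0) : ‖w - (x : ℂ)‖ ≤ w0 + e0 := by
  have h1 := norm_sub_le_of_im (w := w) rfl him he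
  calc ‖w - (x : ℂ)‖ = ‖(w - (w.re : ℂ)) + (((w.re - x : ℝ)) : ℂ)‖ := by
        congr 1; push_cast; ring
    _ ≤ ‖w - (w.re : ℂ)‖ + ‖((w.re - x : ℝ) : ℂ)‖ := norm_add_le _ _
    _ ≤ e0 + w0 := by
        rw [Complex.norm_real, Real.norm_eq_abs]
        exact add_le_add h1 hre
    _ = w0 + e0 := add_comm _ _

end P365T1.H417
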