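import Vale.Agent.P365.H417.Cell2
import Vale.Agent.P365.T1.OneVar

/-!
# P365-T1, chapter C: the centre cost in T-form

`T` kills the region `S`.
-/

set_option linter.all false

namespace P365T1

open P365L P365O Matrix Complex MeasureTheory OneVar
open scoped ComplexConjugate ENNReal

namespace H417

variable {ι : Type*} [Fintype ι] [DecidableEq ι] {A : Matrix ι ι ℝ} {W : ι → ℂ}
variable {F : Type*} [NormedAddCommGroup F] [NormedSpace ℂ F]
variable {S D : Finset ι} {y : ι} {u : ι → ℝ} {s δ L : ℝ}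

/-- `T` kills the sites of `S` -/
def Kills (T : (ι → ℂ) →ₗ[ℂ] F) (S : Finset ι) : Prop :=
  ∀ a : ι → ℂ, (∀ z ∉ S, a z = 0) → T a = 0

/-- Cauchy–Schwarz, vector form -/
theorem cs_vec {α : Type*} (K : Finset α) (e : α → ℝ) (he : ∀ x, 0 ≤ e x) (a : α → ℂ)
    (b : α → F) :
    ‖∑ x ∈ K, ((e x : ℂ) * a x) • b x‖ ^ 2 ≤
      (∑ x ∈ K, e x * ‖a x‖ ^ 2) * (∑ x ∈ K, e x * ‖b x‖ ^ 2) := by
  have h1 : ‖∑ x ∈ K, ((e x : ℂ) * a x) • b x‖ ≤
      ∑ x ∈ K, (Real.sqrt (e x) * ‖a x‖) * (Real.sqrt (e x) * ‖b x‖) := by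
    refine (norm_sum_le _ _).trans (le_of_eq (Finset.sum_congr rfl fun x _ => ?_))
    rw [norm_smul, norm_mul, Complex.norm_real, Real.norm_eq_abs, abs_of_nonneg (he x)]
    have := Real.mul_self_sqrt (he x)
    calc e x * ‖a x‖ * ‖b x‖ = (Real.sqrt (e x) * Real.sqrt (e x)) * (‖a x‖ * ‖b x‖) := by
          rw [this]; ring
      _ = _ := by ring
  have h2 := Finset.sum_mul_sq_le_sq_mul_sq K (fun x => Real.sqrt (e x) * ‖a x‖)
    (fun x => Real.sqrt (e x) * ‖b x‖)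
  have h3 : ∑ x ∈ K, (Real.sqrt (e x) * ‖a x‖) ^ 2 = ∑ x ∈ K, e x * ‖a x‖ ^ 2 := by
    refine Finset.sum_congr rfl fun x _ => ?_
    rw [mul_pow, Real.sq_sqrt (he x)]
  have h4 : ∑ x ∈ K, (Real.sqrt (e x) * ‖b x‖) ^ 2 = ∑ x ∈ K, e x * ‖b x‖ ^ 2 := by
    refine Finset.sum_congr rfl fun x _ => ?_
    rw [mul_pow, Real.sq_sqrt (he x)]
  rw [h3, h4] at h2
  exact (pow_le_pow_left₀ (norm_nonneg _) h1 2).trans h2

/-- the unit wave of the centre as a vector -/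
theorem T_gw_rep (hA : A.IsSymm) (hW : ∀ x, (W x).im < 0) (Fz : Frz A W S y u s)
    (T : (ι → ℂ) →ₗ[ℂ] F) (hT : Kills T S) :
    T (gw A W y) = I • (∑ x ∈ S.erase y, ((((-(W x).im : ℝ)) : ℂ) * (u x : ℂ)) •
        T (fun z => Gi A W y x z)) -
      ∑ q ∈ S ×ˢ Sᶜ, (A q.1 q.2 : ℂ) • ((u q.1 : ℂ) • T (fun z => Gi A W y q.2 z) -
        (u q.2 : ℂ) • T (fun z => Gi A W y q.1 z)) := by
  set R : ι → ℂ := I • (∑ x ∈ S.erase y, ((((-(W x).im : ℝ)) : ℂ) * (u x : ℂ)) •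
        (fun z => Gi A W y x z)) -
      ∑ q ∈ S ×ˢ Sᶜ, (A q.1 q.2 : ℂ) • ((u q.1 : ℂ) • (fun z => Gi A W y q.2 z) -
        (u q.2 : ℂ) • (fun z => Gi A W y q.1 z)) with hR
  have h1 : ∀ z ∉ S, (gw A W y - R) z = 0 := by
    intro z hz
    have hzy : z ≠ y := fun h => hz (h ▸ Fz.yS)
    have h2 := gw_rep hA hW Fz hzy
    rw [if_neg hz, zero_add, bd] at h2
    rw [hR]
    simp only [Pi.sub_apply, Pi.smul_apply, Finset.sum_apply, smul_eq_mul]
    rw [h2, Finset.sum_product]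
    have h3 : ∑ x ∈ S.erase y, (((-(W x).im : ℝ)) : ℂ) * ((u x : ℂ) * Gi A W y x z) =
        ∑ x ∈ S.erase y, (((-(W x).im : ℝ)) : ℂ) * (u x : ℂ) * Gi A W y x z :=
      Finset.sum_congr rfl fun x _ => by ring
    rw [h3]
    ring
  have h4 := hT _ h1
  rw [map_sub, sub_eq_zero] at h4
  rw [h4, hR, map_sub, map_smul, map_sum, map_sum]
  congr 1
  · congr 1
    exact Finset.sum_congr rfl fun x _ => by rw [map_smul]
  · exact Finset.sum_congr rfl fun q _ => by rw [map_smul, map_sub, map_smul, map_smul]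

theorem T_Gi_le (hA : A.IsSymm) (hW : ∀ x, (W x).im < 0) (T : (ι → ℂ) →ₗ[ℂ] F) (y x : ι) :
    ‖T (fun z => Gi A W y x z)‖ ^ 2 ≤
      2 * ‖GV A W T x‖ ^ 2 + 2 * (‖gw A W y x‖ ^ 2 * ‖GV A W T y‖ ^ 2) := by
  have h1 : T (fun z => Gi A W y x z) = GV A W T x - gw A W y x • GV A W T y := by
    rw [OneVar.GV, OneVar.GV, ← map_smul, ← map_sub]
    congr 1
  rw [h1, ← mul_pow, ← norm_smul]
  have := norm_sub_le (GV A W T x) (gw A W y x • GV A W T y)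
  nlinarith [norm_nonneg (GV A W T x - gw A W y x • GV A W T y), norm_nonneg (GV A W T x),
    norm_nonneg (gw A W y x • GV A W T y),
    sq_nonneg (‖GV A W T x‖ - ‖gw A W y x • GV A W T y‖)]

/-- **CENTRE, T-form**: the far vector of the shielded centre through the ports -/
theorem centre_T (hA : A.IsSymm) (hdeg : ∀ x, ∑ z, |A x z| ≤ 4) (hW : ∀ x, (W x).im < 0)
    (Fz : Frz A W S y u s) (P : Port A S D y) (hδ : 0 ≤ δ) (hu : ∀ p ∈ D, |u p| ≤ δ)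
    (hL : 0 ≤ L) (hG : ∀ p ∈ D, ∀ q ∈ D, ‖Gi A W y p q‖ ≤ L)
    (T : (ι → ℂ) →ₗ[ℂ] F) (hT : Kills T S) :
    ‖T (gw A W y)‖ ^ 2 ≤
      4 * ab W S y u * (∑ x ∈ S.erase y, (-(W x).im) * ‖GV A W T x‖ ^ 2 +
        kp A W S y u δ L * ‖GV A W T y‖ ^ 2) +
      32 * nb A S * δ ^ 2 * (∑ p ∈ D, ‖GV A W T p‖ ^ 2 +
        (D.card : ℝ) * gm A W S y u δ L ^ 2 * ‖GV A W T y‖ ^ 2) := by
  set M := ‖GV A W T y‖ ^ 2 with hMdef
  have hM : 0 ≤ M := sq_nonneg _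
  have hab := ab_nonneg (S := S) (y := y) (u := u) hW
  have hnb := nb_nonneg A S
  rw [T_gw_rep hA hW Fz T hT]
  set a := I • (∑ x ∈ S.erase y, ((((-(W x).im : ℝ)) : ℂ) * (u x : ℂ)) •
        T (fun z => Gi A W y x z)) with ha
  set b := ∑ q ∈ S ×ˢ Sᶜ, (A q.1 q.2 : ℂ) • ((u q.1 : ℂ) • T (fun z => Gi A W y q.2 z) -
        (u q.2 : ℂ) • T (fun z => Gi A W y q.1 z)) with hb
  set g : ι → ℝ := fun x => ‖T (fun z => Gi A W y x z)‖ with hg
  have ha1 : ‖a‖ ^ 2 ≤ ab W S y u * ∑ x ∈ S.erase y, (-(W x).im) * g x ^ 2 := by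
    rw [ha, norm_smul, norm_I, one_mul]
    have h1 := cs_vec (S.erase y) (fun x => -(W x).im) (fun x => by linarith [hW x])
      (fun x => (u x : ℂ)) (fun x => T (fun z => Gi A W y x z))
    have h2 : ∑ x ∈ S.erase y, -(W x).im * ‖((u x : ℝ) : ℂ)‖ ^ 2 = ab W S y u := by
      unfold ab
      refine Finset.sum_congr rfl fun x _ => ?_
      rw [Complex.norm_real, Real.norm_eq_abs, sq_abs]
    rw [h2] at h1
    exact h1
  have hb1 : ‖b‖ ^ 2 ≤ 8 * nb A S * δ ^ 2 * ∑ p ∈ D, g p ^ 2 := by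
    set K : Finset (ι × ι) := S ×ˢ Sᶜ with hK
    have h1 : ‖b‖ ≤ ∑ q ∈ K, |A q.1 q.2| * (δ * (g q.1 + g q.2)) := by
      refine (norm_sum_le _ _).trans (Finset.sum_le_sum fun q hq => ?_)
      obtain ⟨hq1, hq2⟩ := Finset.mem_product.1 hq
      by_cases h : A q.1 q.2 = 0
      · rw [h]; simp
      obtain ⟨h1, h2⟩ := P.cov q.1 hq1 q.2 hq2 h
      rw [norm_smul, Complex.norm_real, Real.norm_eq_abs]
      refine mul_le_mul_of_nonneg_left ?_ (abs_nonneg _)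
      refine (norm_sub_le _ _).trans ?_
      rw [norm_smul, norm_smul, Complex.norm_real, Complex.norm_real, Real.norm_eq_abs,
        Real.norm_eq_abs]
      have h3 := mul_le_mul_of_nonneg_right (hu q.1 h1) (norm_nonneg (T (fun z => Gi A W y q.2 z)))
      have h4 := mul_le_mul_of_nonneg_right (hu q.2 h2) (norm_nonneg (T (fun z => Gi A W y q.1 z)))
      simp only [hg]
      linarith
    have h2 : (∑ q ∈ K, |A q.1 q.2| * (δ * (g q.1 + g q.2))) ^ 2 ≤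
        (∑ q ∈ K, |A q.1 q.2|) * ∑ q ∈ K, |A q.1 q.2| * (δ * (g q.1 + g q.2)) ^ 2 := by
      have h3 := Finset.sum_mul_sq_le_sq_mul_sq K (fun q => Real.sqrt |A q.1 q.2|)
        (fun q => Real.sqrt |A q.1 q.2| * (δ * (g q.1 + g q.2)))
      have h4 : ∀ q : ι × ι, Real.sqrt |A q.1 q.2| * (Real.sqrt |A q.1 q.2| *
          (δ * (g q.1 + g q.2))) = |A q.1 q.2| * (δ * (g q.1 + g q.2)) := by
        intro q
        rw [← mul_assoc, Real.mul_self_sqrt (abs_nonneg _)]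
      have h5 : ∀ q : ι × ι, (Real.sqrt |A q.1 q.2|) ^ 2 = |A q.1 q.2| :=
        fun q => Real.sq_sqrt (abs_nonneg _)
      simp only [h4, mul_pow, h5] at h3
      simp only [mul_pow]
      exact h3
    have h3 : ∑ q ∈ K, |A q.1 q.2| = nb A S := by
      rw [hK, Finset.sum_product, nb]
    have h4 : ∑ q ∈ K, |A q.1 q.2| * (δ * (g q.1 + g q.2)) ^ 2 ≤
        2 * δ ^ 2 * (4 * ∑ p ∈ D, g p ^ 2) := by
      have h5 := bsum_le hA hdeg P (fun p => g p ^ 2) (fun p => sq_nonneg _)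
      have h6 : ∑ q ∈ K, |A q.1 q.2| * (δ * (g q.1 + g q.2)) ^ 2 ≤
          2 * δ ^ 2 * ∑ q ∈ K, |A q.1 q.2| * (g q.1 ^ 2 + g q.2 ^ 2) := by
        rw [Finset.mul_sum]
        refine Finset.sum_le_sum fun q _ => ?_
        have h7 : (δ * (g q.1 + g q.2)) ^ 2 ≤ 2 * δ ^ 2 * (g q.1 ^ 2 + g q.2 ^ 2) := by
          nlinarith [mul_nonneg (sq_nonneg δ) (sq_nonneg (g q.1 - g q.2))]
        calc |A q.1 q.2| * (δ * (g q.1 + g q.2)) ^ 2
            ≤ |A q.1 q.2| * (2 * δ ^ 2 * (g q.1 ^ 2 + g q.2 ^ 2)) :=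
              mul_le_mul_of_nonneg_left h7 (abs_nonneg _)
          _ = _ := by ring
      refine h6.trans (mul_le_mul_of_nonneg_left ?_ (by positivity))
      rw [hK, Finset.sum_product]
      exact h5
    calc ‖b‖ ^ 2 ≤ (∑ q ∈ K, |A q.1 q.2| * (δ * (g q.1 + g q.2))) ^ 2 :=
          pow_le_pow_left₀ (norm_nonneg _) h1 2
      _ ≤ nb A S * (2 * δ ^ 2 * (4 * ∑ p ∈ D, g p ^ 2)) := by
          rw [h3] at h2
          exact h2.trans (mul_le_mul_of_nonneg_left h4 hnb)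
      _ = _ := by ring
  have hc1 : ∑ x ∈ S.erase y, (-(W x).im) * g x ^ 2 ≤
      2 * (∑ x ∈ S.erase y, (-(W x).im) * ‖GV A W T x‖ ^ 2 + kp A W S y u δ L * M) := by
    have h2 : ∑ x ∈ S.erase y, (-(W x).im) * g x ^ 2 ≤
        ∑ x ∈ S.erase y, (2 * ((-(W x).im) * ‖GV A W T x‖ ^ 2) +
          2 * (((-(W x).im) * ‖gw A W y x‖ ^ 2) * M)) := by
      refine Finset.sum_le_sum fun x _ => ?_
      have := mul_le_mul_of_nonneg_left (T_Gi_le hA hW T y x)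
        (show 0 ≤ -(W x).im by linarith [hW x])
      simp only [hg]
      linarith
    refine h2.trans ?_
    rw [Finset.sum_add_distrib, ← Finset.mul_sum, ← Finset.mul_sum, ← Finset.sum_mul]
    have h3 := (gw_flux hA hW y (S.erase y) (Finset.notMem_erase y S)).trans
      (sg_close hA hW Fz P hδ hu hL hG).2
    have h4 := mul_le_mul_of_nonneg_right h3 hM
    linarith
  have hc2 : ∑ p ∈ D, g p ^ 2 ≤ 2 * (∑ p ∈ D, ‖GV A W T p‖ ^ 2 +
        (D.card : ℝ) * gm A W S y u δ L ^ 2 * M) := by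
    have h3 : ∑ p ∈ D, g p ^ 2 ≤
        ∑ p ∈ D, (2 * ‖GV A W T p‖ ^ 2 + 2 * (gm A W S y u δ L ^ 2 * M)) := by
      refine Finset.sum_le_sum fun p hp => ?_
      have h4 := gw_port hA hW Fz P hδ hu hL hG hp
      have h5 : ‖gw A W y p‖ ^ 2 ≤ gm A W S y u δ L ^ 2 := pow_le_pow_left₀ (norm_nonneg _) h4 2
      have h6 := mul_le_mul_of_nonneg_right h5 hM
      have := T_Gi_le hA hW T y p
      simp only [hg]
      linarith
    refine h3.trans (le_of_eq ?_)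
    rw [Finset.sum_add_distrib, ← Finset.mul_sum, Finset.sum_const, nsmul_eq_mul]
    ring
  have h3 := mul_le_mul_of_nonneg_left hc1 (show 0 ≤ 2 * ab W S y u by positivity)
  have h4 := mul_le_mul_of_nonneg_left hc2 (show 0 ≤ 16 * nb A S * δ ^ 2 by positivity)
  have h5 : ‖a - b‖ ^ 2 ≤ 2 * ‖a‖ ^ 2 + 2 * ‖b‖ ^ 2 := by
    have := norm_sub_le a b
    nlinarith [norm_nonneg (a - b), norm_nonneg a, norm_nonneg b, sq_nonneg (‖a‖ - ‖b‖)]
  linarith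

end H417

end P365T1
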