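import Vale.Agent.P365.H417.ThreeG

/-!
# P365 T1, helper417: the 3G inequality for finitely many matrices at once, masked matrices
-/

set_option autoImplicit false
set_option linter.all false

open Matrix MeasureTheory Set
open scoped ENNReal

namespace P365T1.H417

variable {X : Type*} [Fintype X] [DecidableEq X]

/-- 3G for finitely many matrices at once -/
theorem exists_3G_family [Nonempty X] {I : Type*} [Fintype I] [Nonempty I]
    (A : I → Matrix X X ℝ) (V0 : X → ℝ) {w : ℝ} (hw : 0 < w) :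
    ∃ V : X → ℝ, (∀ x, |V x - V0 x| ≤ w) ∧ ∀ i, (A i + Matrix.diagonal V).det ≠ 0 ∧
      ∀ a z b, |GR (A i) V a z * GR (A i) V z b| ≤
        (8 * (Fintype.card I : ℝ) * (Fintype.card X : ℝ) ^ 3 / w) * |GR (A i) V a b| := by
  haveI : ∀ i, IsProbabilityMeasure (unif w (V0 i)) := fun i => unif_prob hw _
  set N : ℝ := (Fintype.card X : ℝ) with hN
  set m : ℝ := (Fintype.card I : ℝ) with hm
  have hN0 : 0 < N := by rw [hN]; exact_mod_cast Fintype.card_pos
  have hm0 : 0 < m := by rw [hm]; exact_mod_cast Fintype.card_pos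
  set ε : ℝ := w / (8 * m * N ^ 3) with hε
  have hεp : 0 < ε := by positivity
  set P := Measure.pi (fun i => unif w (V0 i)) with hP
  set B : I × X × X × X → Set (X → ℝ) := fun q => {V | (A q.1 + Matrix.diagonal V).det ≠ 0 ∧
        |GR (A q.1) V q.2.1 q.2.2.2| <
          ε * |GR (A q.1) V q.2.1 q.2.2.1 * GR (A q.1) V q.2.2.1 q.2.2.2|} with hB
  have h1 : P (⋃ q, B q) ≤ ENNReal.ofReal (1 / 2) := by
    calc P (⋃ q, B q) ≤ ∑ q, P (B q) := measure_iUnion_fintype_le _ _
      _ ≤ ∑ q : I × X × X × X, ENNReal.ofReal (4 * ε / w) :=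
        Finset.sum_le_sum fun q _ => bad_le (A q.1) V0 hw hεp q.2.1 q.2.2.1 q.2.2.2
      _ = ENNReal.ofReal (1 / 2) := by
        rw [Finset.sum_const, Finset.card_univ, nsmul_eq_mul]
        rw [show ((Fintype.card (I × X × X × X) : ℕ) : ℝ≥0∞) = ENNReal.ofReal (m * N ^ 3) by
          rw [Fintype.card_prod, Fintype.card_prod, Fintype.card_prod, hN, hm]
          rw [ENNReal.ofReal_mul (by positivity), ENNReal.ofReal_pow (by positivity),
            ENNReal.ofReal_natCast, ENNReal.ofReal_natCast]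
          push_cast; ring]
        rw [← ENNReal.ofReal_mul (by positivity)]
        congr 1
        rw [hε]; field_simp; ring
  have h2 : ∀ᵐ V ∂P, ∀ i, |V i - V0 i| ≤ w := by
    rw [ae_all_iff]
    intro i
    exact (Measure.tendsto_eval_ae_ae (μ := fun i => unif w (V0 i)) (i := i)).eventually
      (unif_supp w (V0 i))
  have h4 : ∀ᵐ V ∂P, ∀ i, (A i + Matrix.diagonal V).det ≠ 0 := by
    rw [ae_all_iff]
    intro i
    rw [ae_iff]
    simpa using det_null (A i) V0 hw
  have h5 : P (⋃ q, B q)ᶜ ≠ 0 := by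
    intro h0
    have : P Set.univ ≤ ENNReal.ofReal (1 / 2) := by
      calc P Set.univ ≤ P (⋃ q, B q) + P (⋃ q, B q)ᶜ := by
            rw [← Set.union_compl_self (⋃ q, B q)]; exact measure_union_le _ _
        _ ≤ ENNReal.ofReal (1 / 2) := by rw [h0, add_zero]; exact h1
    rw [measure_univ] at this
    have h6 : ENNReal.ofReal (1 / 2) < 1 := by
      rw [← ENNReal.ofReal_one]
      exact (ENNReal.ofReal_lt_ofReal_iff one_pos).2 (by norm_num)
    exact absurd this (not_le.2 h6)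
  have h7 : ∃ V, V ∈ (⋃ q, B q)ᶜ ∧ (∀ i, |V i - V0 i| ≤ w) ∧
      ∀ i, (A i + Matrix.diagonal V).det ≠ 0 := by
    by_contra hcon
    push Not at hcon
    apply h5
    have hae : ∀ᵐ V ∂P, V ∉ (⋃ q, B q)ᶜ := by
      filter_upwards [h2, h4] with V hV1 hV2 hV3
      obtain ⟨i, hi⟩ := hcon V hV3 hV1
      exact hV2 i hi
    rw [ae_iff] at hae
    have e : {V | ¬ V ∉ (⋃ q, B q)ᶜ} = (⋃ q, B q)ᶜ := by ext V; simp
    rw [e] at hae
    exact hae
  obtain ⟨V, hV1, hV2, hV3⟩ := h7
  refine ⟨V, hV2, fun i => ⟨hV3 i, ?_⟩⟩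
  intro a z b
  have : V ∉ B (i, a, z, b) := fun h => hV1 (mem_iUnion.2 ⟨_, h⟩)
  simp only [hB, mem_setOf_eq, not_and, not_lt] at this
  have h8 := this (hV3 i)
  have h9 : (8 * m * N ^ 3 / w) = 1 / ε := by rw [hε]; field_simp
  rw [h9, one_div, ← div_eq_inv_mul, le_div_iff₀ hεp]
  linarith

/-- the matrix `A` with all couplings to sites outside `U` removed -/
def mask (A : Matrix X X ℝ) (U : Finset X) : Matrix X X ℝ :=
  fun x y => if x ∈ U ∧ y ∈ U then A x y else 0

theorem mask_symm {A : Matrix X X ℝ} (hA : A.IsSymm) (U : Finset X) : (mask A U).IsSymm := by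
  rw [Matrix.IsSymm]
  ext x y
  simp only [Matrix.transpose_apply, mask]
  by_cases h : x ∈ U ∧ y ∈ U
  · rw [if_pos h, if_pos ⟨h.2, h.1⟩]; exact hA.apply x y
  · rw [if_neg h, if_neg fun h' => h ⟨h'.2, h'.1⟩]

/-- `GR A V` on `U` with Dirichlet conditions outside `U` -/
noncomputable def GU (A : Matrix X X ℝ) (U : Finset X) (V : X → ℝ) : Matrix X X ℝ := GR (mask A U) V

/-- **stable windows, final form**: for finitely many symmetric matrices `A i` and every centre `V0`
with window `w0` there is a centre `V` in the half window such that in the polynomially smaller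
windows `w0 / (64 |I| N^4)` around `V` all entries of all Green matrices are stable within a relative
error `1/2` and bounded by `24 |I| N^3 / w0`. -/
theorem stable_family [Nonempty X] {I : Type*} [Fintype I] [Nonempty I]
    (A : I → Matrix X X ℝ) (hA : ∀ i, (A i).IsSymm) (V0 : X → ℝ) {w0 : ℝ} (hw : 0 < w0) :
    ∃ V : X → ℝ, (∀ x, |V x - V0 x| ≤ w0 / 2) ∧
      ∀ V' : X → ℝ, (∀ x, |V' x - V x| ≤ w0 / (64 * Fintype.card I * (Fintype.card X : ℝ) ^ 4)) →
        (∀ x, |V' x - V0 x| ≤ w0) ∧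
        ∀ i, (A i + Matrix.diagonal V').det ≠ 0 ∧
          (∀ a b, |GR (A i) V' a b - GR (A i) V a b| ≤ 1 / 2 * |GR (A i) V a b|) ∧
          ∀ a b, |GR (A i) V' a b| ≤ 24 * Fintype.card I * (Fintype.card X : ℝ) ^ 3 / w0 := by
  obtain ⟨V, hV, h⟩ := exists_3G_family A V0 (half_pos hw)
  refine ⟨V, hV, fun V' hV' => ?_⟩
  set N : ℝ := (Fintype.card X : ℝ) with hN
  set m : ℝ := (Fintype.card I : ℝ) with hm
  have hN1 : 1 ≤ N := by rw [hN]; exact_mod_cast Fintype.card_pos
  have hm1 : 1 ≤ m := by rw [hm]; exact_mod_cast Fintype.card_pos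
  have hN4 : 1 ≤ N ^ 4 := one_le_pow₀ hN1
  have hw' : w0 / (64 * m * N ^ 4) ≤ w0 / 2 := by
    apply div_le_div_of_nonneg_left hw.le (by norm_num)
    nlinarith [mul_le_mul hm1 hN4 zero_le_one (by linarith)]
  refine ⟨fun x => ?_, fun i => ?_⟩
  · have h1 := abs_sub_le (V' x) (V x) (V0 x)
    linarith [hV x, hV' x]
  · obtain ⟨hdet, h3⟩ := h i
    set Q : ℝ := 8 * m * N ^ 3 / (w0 / 2) with hQ
    have hQ0 : 0 ≤ Q := by positivity
    have hsmall : w0 / (64 * m * N ^ 4) * (Fintype.card X) * Q = 1 / 4 := by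
      rw [hQ, ← hN]; field_simp; norm_num
    obtain ⟨h4, h5⟩ := stable (hA i) hdet h3 hQ0 hV' (by rw [hsmall]; norm_num)
    rw [hsmall] at h5
    refine ⟨h4, fun a b => ?_, fun a b => ?_⟩
    · have := h5 a b
      linarith
    · have e1 := entry_bound (hA i) hdet h3 hQ0 a b
      have e2 := h5 a b
      have e3 := abs_sub_abs_le_abs_sub (GR (A i) V' a b) (GR (A i) V a b)
      have e4 : 24 * m * N ^ 3 / w0 = 3 / 2 * Q := by rw [hQ]; field_simp; norm_num
      rw [e4]
      nlinarith [abs_nonneg (GR (A i) V a b)]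

end P365T1.H417
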