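import Vale.Agent.P365.H417.Cell
import Vale.Agent.P365.C937.TwoSite
import Vale.Agent.P365.T1.OneVar

/-!
# P365-T1, chapter C, steps (5) + (6): from the rim site `ρ` to the shielded centre `y`

T-form (helper37): `T` any linear map into a normed space.
`∫ Y_ρ dV_y ≤ K₁ ∫∫ ‖T G_y‖² dV_y dV_ρ`, everything else fixed.
-/

set_option linter.all false

namespace P365T1

open P365L P365O Matrix Complex MeasureTheory OneVar
open scoped ComplexConjugate ENNReal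

namespace H417

variable {ι : Type*} [Fintype ι] [DecidableEq ι] {A : Matrix ι ι ℝ} {W : ι → ℂ}
variable {F : Type*} [NormedAddCommGroup F] [NormedSpace ℂ F]

/-! ### variance in one variable, vector form -/

theorem two_values {γ φ : F} {κ s : ℂ} {v v' L δ : ℝ} (hδ : 0 ≤ δ) (hv' : |v'| ≤ L)
    (hκ : δ ≤ ‖κ / (v - s)‖) (hne : (v : ℂ) - s ≠ 0) (hne' : (v' : ℂ) - s ≠ 0)
    (hL : 0 < L + ‖s‖) :
    (|v - v'| * δ * ‖φ‖ / (L + ‖s‖)) ^ 2
      ≤ 2 * ‖γ + (κ / (v - s)) • φ‖ ^ 2 + 2 * ‖γ + (κ / (v' - s)) • φ‖ ^ 2 := by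
  have h1 : ‖(γ + (κ / (v' - s)) • φ) - (γ + (κ / (v - s)) • φ)‖
      = |v - v'| * ‖κ / (v - s)‖ * ‖φ‖ / ‖(v' : ℂ) - s‖ := by
    have : (γ + (κ / (v' - s)) • φ) - (γ + (κ / (v - s)) • φ)
        = ((((v - v' : ℝ)) : ℂ) * (κ / (v - s)) / (v' - s)) • φ := by
      rw [add_sub_add_left_eq_sub, ← sub_smul]
      congr 1
      push_cast
      field_simp
      ring
    rw [this, norm_smul, norm_div, norm_mul, Complex.norm_real, Real.norm_eq_abs]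
    ring
  have h2 : |v - v'| * δ * ‖φ‖ / (L + ‖s‖)
      ≤ ‖(γ + (κ / (v' - s)) • φ) - (γ + (κ / (v - s)) • φ)‖ := by
    rw [h1]
    have h3 : ‖(v' : ℂ) - s‖ ≤ L + ‖s‖ := by
      calc _ ≤ ‖(v' : ℂ)‖ + ‖s‖ := norm_sub_le _ _
        _ ≤ _ := by
          rw [Complex.norm_real, Real.norm_eq_abs]
          linarith
    have h4 : 0 < ‖(v' : ℂ) - s‖ := norm_pos_iff.mpr hne'
    calc |v - v'| * δ * ‖φ‖ / (L + ‖s‖) ≤ |v - v'| * δ * ‖φ‖ / ‖(v' : ℂ) - s‖ :=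
          div_le_div_of_nonneg_left (by positivity) h4 h3
      _ ≤ |v - v'| * ‖κ / (v - s)‖ * ‖φ‖ / ‖(v' : ℂ) - s‖ := by gcongr
  have h5 : ‖(γ + (κ / (v' - s)) • φ) - (γ + (κ / (v - s)) • φ)‖
      ≤ ‖γ + (κ / (v' - s)) • φ‖ + ‖γ + (κ / (v - s)) • φ‖ := norm_sub_le _ _
  have h6 : 0 ≤ |v - v'| * δ * ‖φ‖ / (L + ‖s‖) := by positivity
  calc (|v - v'| * δ * ‖φ‖ / (L + ‖s‖)) ^ 2
      ≤ (‖γ + (κ / (v' - s)) • φ‖ + ‖γ + (κ / (v - s)) • φ‖) ^ 2 := by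
        have := h2.trans h5
        gcongr
    _ ≤ _ := by
        nlinarith [sq_nonneg (‖γ + (κ / (v' - s)) • φ‖ - ‖γ + (κ / (v - s)) • φ‖)]

/-- **One-variable variance bound, vector form** -/
theorem var_vec {S : Set ℝ} (hS : MeasurableSet S) {L w δ : ℝ} (hSL : ∀ v ∈ S, |v| ≤ L)
    (hw0 : 0 < w) (hw : ENNReal.ofReal w ≤ volume S) (hδ : 0 < δ) {s κ : ℂ}
    (hκ : ∀ v ∈ S, δ ≤ ‖κ / (v - s)‖) (γ φ : F) :
    ENNReal.ofReal (3 / 256 * w ^ 3 * δ ^ 2 * ‖φ‖ ^ 2 / (L + ‖s‖) ^ 2)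
      ≤ ∫⁻ v in S, ENNReal.ofReal (‖γ + (κ / (v - s)) • φ‖ ^ 2) := by
  have hne : ∀ v ∈ S, (v : ℂ) - s ≠ 0 := by
    intro v hv h0
    have := hκ v hv
    rw [h0, div_zero, norm_zero] at this
    linarith
  -- `L` is positive
  have hLpos : 0 < L := by
    by_contra hL
    push Not at hL
    have hsub : S ⊆ {0} := by
      intro v hv
      have := hSL v hv
      have h0 : |v| = 0 := le_antisymm (this.trans hL) (abs_nonneg v)
      exact abs_eq_zero.mp h0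
    have hz : volume S = 0 := measure_mono_null hsub (by simp)
    rw [hz] at hw
    have := ENNReal.ofReal_pos.mpr hw0
    exact absurd hw (not_le.mpr this)
  have hLs : 0 < L + ‖s‖ := by positivity
  set G : ℝ → ℝ := fun v => ‖γ + (κ / (v - s)) • φ‖ with hG
  set m : ℝ := (w / 4 * δ * ‖φ‖ / (L + ‖s‖)) ^ 2 / 4 with hm
  have hm0 : 0 ≤ m := by positivity
  have hGm : Measurable G := by
    have h1 : Measurable fun v : ℝ => κ / ((v : ℂ) - s) :=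
      measurable_const.div (Complex.measurable_ofReal.sub_const s)
    have h2 : Continuous fun c : ℂ => ‖γ + c • φ‖ := by fun_prop
    exact h2.measurable.comp h1
  set T : Set ℝ := {v | v ∈ S ∧ G v ^ 2 < m} with hT
  have hTm : MeasurableSet T := hS.inter (measurableSet_lt (hGm.pow_const 2) measurable_const)
  have hTd : volume T ≤ ENNReal.ofReal (w / 4) := by
    refine (Real.volume_le_diam _).trans (Metric.ediam_le ?_)
    rintro v ⟨hv, hv1⟩ v' ⟨hv', hv1'⟩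
    rw [edist_dist, Real.dist_eq]
    apply ENNReal.ofReal_le_ofReal
    by_contra hcon
    push Not at hcon
    have h1 := two_values (γ := γ) (φ := φ) hδ.le (hSL v' hv') (hκ v hv) (hne v hv)
      (hne v' hv') hLs
    have h2 : (w / 4 * δ * ‖φ‖ / (L + ‖s‖)) ^ 2 ≤ (|v - v'| * δ * ‖φ‖ / (L + ‖s‖)) ^ 2 := by
      gcongr
    have h3 : 2 * ‖γ + (κ / (v - s)) • φ‖ ^ 2 + 2 * ‖γ + (κ / (v' - s)) • φ‖ ^ 2 < 4 * m := by
      simp only [hG] at hv1 hv1'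
      linarith
    have h4 : 4 * m = (w / 4 * δ * ‖φ‖ / (L + ‖s‖)) ^ 2 := by rw [hm]; ring
    rw [h4] at h3
    exact absurd (h2.trans h1) (not_le.mpr h3)
  have hST : ENNReal.ofReal (3 * w / 4) ≤ volume (S \ T) := by
    have h1 : volume S ≤ volume (S \ T) + volume T := by
      calc volume S ≤ volume (S \ T ∪ T) := measure_mono (by
            intro x hx
            by_cases h : x ∈ T
            · exact Or.inr h
            · exact Or.inl ⟨hx, h⟩)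
        _ ≤ _ := measure_union_le _ _
    have h2 : ENNReal.ofReal w ≤ volume (S \ T) + ENNReal.ofReal (w / 4) :=
      (hw.trans h1).trans (by gcongr)
    have h3 : ENNReal.ofReal w = ENNReal.ofReal (3 * w / 4) + ENNReal.ofReal (w / 4) := by
      rw [← ENNReal.ofReal_add (by positivity) (by positivity)]; congr 1; ring
    rw [h3] at h2
    exact (ENNReal.add_le_add_iff_right ENNReal.ofReal_ne_top).mp h2
  calc ENNReal.ofReal (3 / 256 * w ^ 3 * δ ^ 2 * ‖φ‖ ^ 2 / (L + ‖s‖) ^ 2)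
      = ENNReal.ofReal m * ENNReal.ofReal (3 * w / 4) := by
        rw [← ENNReal.ofReal_mul hm0]
        congr 1
        rw [hm]
        field_simp
        ring
    _ ≤ ENNReal.ofReal m * volume (S \ T) := by gcongr
    _ = ∫⁻ _v in S \ T, ENNReal.ofReal m := by rw [setLIntegral_const]
    _ ≤ ∫⁻ v in S \ T, ENNReal.ofReal (G v ^ 2) := by
        apply setLIntegral_mono' (hS.diff hTm)
        intro v hv
        apply ENNReal.ofReal_le_ofReal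
        by_contra hcon
        push Not at hcon
        exact hv.2 ⟨hv.1, hcon⟩
    _ ≤ ∫⁻ v in S, ENNReal.ofReal (G v ^ 2) := lintegral_mono_set Set.sdiff_subset

/-! ### one-variable facts -/

/-- Poisson kernel against a bounded density -/
theorem lint_kernel {ν : Measure ℝ} {K : ℝ} (hν : ν ≤ ENNReal.ofReal K • (volume : Measure ℝ))
    {σ : ℂ} (hσ : 0 < σ.im) :
    ∫⁻ v : ℝ, ENNReal.ofReal (σ.im / ‖(v : ℂ) - σ‖ ^ 2) ∂ν ≤
      ENNReal.ofReal K * ENNReal.ofReal Real.pi := by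
  have h1 : ∀ v : ℝ, σ.im / ‖(v : ℂ) - σ‖ ^ 2 = σ.im / ((σ.re - v) ^ 2 + σ.im ^ 2) := by
    intro v
    rw [← Complex.normSq_eq_norm_sq, Complex.normSq_apply]
    simp only [Complex.sub_re, Complex.ofReal_re, Complex.sub_im, Complex.ofReal_im]
    congr 1
    ring
  simp only [h1]
  calc ∫⁻ v : ℝ, ENNReal.ofReal (σ.im / ((σ.re - v) ^ 2 + σ.im ^ 2)) ∂ν
      ≤ ∫⁻ v : ℝ, ENNReal.ofReal (σ.im / ((σ.re - v) ^ 2 + σ.im ^ 2))
          ∂(ENNReal.ofReal K • (volume : Measure ℝ)) := lintegral_mono' hν le_rfl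
    _ = _ := by
        rw [lintegral_smul_measure, lintegral_poisson_one _ hσ, smul_eq_mul]

theorem GV_rez_self (hA : A.IsSymm) (hW : ∀ x, (W x).im < 0) (T : (ι → ℂ) →ₗ[ℂ] F) (y : ι)
    (v : ℝ) :
    ‖GV A (rez W y v) T y‖ ^ 2 = ‖T (gw A W y)‖ ^ 2 / ‖(v : ℂ) - sz A W y‖ ^ 2 := by
  have hv : ((v : ℂ) + ((W y).im : ℂ) * I).im < 0 := by rw [rez_im]; exact hW y
  rw [rez, GV_update_self hA hW T hv, norm_smul, norm_inv, mul_pow, inv_pow, div_eq_mul_inv,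
    mul_comm]
  have : ((v : ℂ) + ((W y).im : ℂ) * I) - sg A W y = (v : ℂ) - sz A W y := by
    rw [sz]; ring
  rw [this]

/-- **(6)** lower bound of the energy density of `y` over its own potential -/
theorem Tgw_le_GV (hA : A.IsSymm) (hW : ∀ x, (W x).im < 0) (T : (ι → ℂ) →ₗ[ℂ] F)
    {y : ι} {ν : Measure ℝ} {κ b c γ : ℝ} (hκ : 0 < κ)
    (hν : ENNReal.ofReal κ • (volume : Measure ℝ).restrict (Set.Icc b c) ≤ ν)
    (hre : (sz A W y).re ∈ Set.Icc (b + γ) (c - γ)) (him : (sz A W y).im ≤ γ) :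
    ENNReal.ofReal (‖T (gw A W y)‖ ^ 2) ≤ ENNReal.ofReal (γ / κ) *
      ∫⁻ v : ℝ, ENNReal.ofReal (‖GV A (rez W y v) T y‖ ^ 2) ∂ν := by
  have hpos := sz_im_pos hA hW y
  have hγ0 : 0 < γ := hpos.trans_le him
  set σ := sz A W y with hσ
  set N := ‖T (gw A W y)‖ ^ 2 with hN
  have hN0 : 0 ≤ N := sq_nonneg _
  have hpt : ∀ v ∈ Set.Icc (σ.re - γ) (σ.re + γ), N / (2 * γ ^ 2) ≤
      ‖GV A (rez W y v) T y‖ ^ 2 := by
    intro v hv
    rw [GV_rez_self hA hW, ← hσ, ← hN]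
    have h1 : ‖(v : ℂ) - σ‖ ^ 2 ≤ 2 * γ ^ 2 := by
      rw [← Complex.normSq_eq_norm_sq, Complex.normSq_apply]
      simp only [Complex.sub_re, Complex.ofReal_re, Complex.sub_im, Complex.ofReal_im]
      have h3 : (v - σ.re) ^ 2 ≤ γ ^ 2 := sq_le_sq' (by linarith [hv.1]) (by linarith [hv.2])
      nlinarith
    have h2 : 0 < ‖(v : ℂ) - σ‖ ^ 2 := by
      have := norm_pos_iff.2 (sub_sz_ne hA hW y v)
      positivity
    exact div_le_div_of_nonneg_left hN0 h2 h1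
  have hsub : Set.Icc (σ.re - γ) (σ.re + γ) ⊆ Set.Icc b c := fun v hv =>
    ⟨by linarith [hv.1, hre.1], by linarith [hv.2, hre.2]⟩
  have h1 : ENNReal.ofReal (κ * (2 * γ) * (N / (2 * γ ^ 2))) ≤
      ∫⁻ v : ℝ, ENNReal.ofReal (‖GV A (rez W y v) T y‖ ^ 2) ∂ν := by
    calc ENNReal.ofReal (κ * (2 * γ) * (N / (2 * γ ^ 2)))
        = ENNReal.ofReal κ * (ENNReal.ofReal (N / (2 * γ ^ 2)) *
            volume (Set.Icc (σ.re - γ) (σ.re + γ))) := by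
          rw [Real.volume_Icc, ← ENNReal.ofReal_mul (by positivity),
            ← ENNReal.ofReal_mul hκ.le]
          congr 1
          ring
      _ = ENNReal.ofReal κ * ∫⁻ v in Set.Icc (σ.re - γ) (σ.re + γ),
            ENNReal.ofReal (N / (2 * γ ^ 2)) := by
          rw [setLIntegral_const]
      _ ≤ ENNReal.ofReal κ * ∫⁻ v in Set.Icc (σ.re - γ) (σ.re + γ),
            ENNReal.ofReal (‖GV A (rez W y v) T y‖ ^ 2) := by
          refine mul_le_mul_right ?_ _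
          exact setLIntegral_mono' measurableSet_Icc fun v hv =>
            ENNReal.ofReal_le_ofReal (hpt v hv)
      _ ≤ ENNReal.ofReal κ * ∫⁻ v in Set.Icc b c,
            ENNReal.ofReal (‖GV A (rez W y v) T y‖ ^ 2) := by
          gcongr
      _ = ∫⁻ v, ENNReal.ofReal (‖GV A (rez W y v) T y‖ ^ 2)
            ∂(ENNReal.ofReal κ • (volume : Measure ℝ).restrict (Set.Icc b c)) := by
          rw [lintegral_smul_measure, smul_eq_mul]
      _ ≤ _ := lintegral_mono' hν le_rfl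
  calc ENNReal.ofReal N
      = ENNReal.ofReal (γ / κ) * ENNReal.ofReal (κ * (2 * γ) * (N / (2 * γ ^ 2))) := by
        rw [← ENNReal.ofReal_mul (by positivity)]
        congr 1
        field_simp
    _ ≤ _ := by gcongr

theorem norm_negI_sub (s : ℂ) (hs : 0 ≤ s.im) : 1 ≤ ‖-I - s‖ ∧ ‖s‖ ≤ ‖-I - s‖ := by
  have h1 : ‖-I - s‖ ^ 2 = s.re ^ 2 + (1 + s.im) ^ 2 := by
    rw [← Complex.normSq_eq_norm_sq, Complex.normSq_apply]
    simp
    ring
  have h2 : ‖s‖ ^ 2 = s.re ^ 2 + s.im ^ 2 := by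
    rw [← Complex.normSq_eq_norm_sq, Complex.normSq_apply]
    ring
  constructor
  · have : (1 : ℝ) ^ 2 ≤ ‖-I - s‖ ^ 2 := by rw [h1]; nlinarith [sq_nonneg s.re]
    exact le_of_sq_le_sq this (norm_nonneg _)
  · have : ‖s‖ ^ 2 ≤ ‖-I - s‖ ^ 2 := by rw [h1, h2]; nlinarith
    exact le_of_sq_le_sq this (norm_nonneg _)

/-! ### step (5): from `ρ` to `y` -/

variable {y ρ : ι}

/-- the wave of `y`, vector form of `gw_two` -/
theorem T_gw_two (hA : A.IsSymm) (hW : ∀ x, (W x).im < 0) (hne : y ≠ ρ) (T : (ι → ℂ) →ₗ[ℂ] F) :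
    T (gw A W y) = T (Gam A W y ρ) + (kap A W y ρ / (W ρ - sgy A W y ρ)) • T (Phi A W y ρ) := by
  rw [← map_smul, ← map_add]
  congr 1
  funext a
  exact gw_two hA hW hne a

/-- the Green vector of `ρ` -/
theorem GV_rho (hA : A.IsSymm) (hW : ∀ x, (W x).im < 0) (hne : y ≠ ρ) (T : (ι → ℂ) →ₗ[ℂ] F) :
    GV A W T ρ = (W ρ - sgy A W y ρ)⁻¹ • T (Phi A W y ρ) +
      (gw A W y ρ * Gr A W y y) • T (gw A W y) := by
  rw [OneVar.GV, ← map_smul, ← map_smul, ← map_add]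
  congr 1
  funext a
  have h0 := Gi_self_ne_zero hA hW hne.symm
  rw [Gr_eq_Gi hA hW y ρ a]
  simp only [Pi.add_apply, Pi.smul_apply, smul_eq_mul]
  rw [← Gi_self_eq hA hW hne, Phi, Gi_symm hA hW y ρ a]
  field_simp

/-- **pointwise bound of the off-resonant energy of `ρ`** -/
theorem Yv_rho_le (hA : A.IsSymm) (hW : ∀ x, (W x).im < 0) (hne : y ≠ ρ)
    (T : (ι → ℂ) →ₗ[ℂ] F) :
    Yv A W T ρ ≤ 4 * (‖T (Phi A W y ρ)‖ ^ 2 / ‖-I - sgy A W y ρ‖ ^ 2) +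
      4 * ((sg A (Function.update W ρ (-I)) y).im *
        ‖Gr A (Function.update W ρ (-I)) y y‖ ^ 2 *
        ‖T (gw A (Function.update W ρ (-I)) y)‖ ^ 2) := by
  have hI : ((-I : ℂ)).im < 0 := by simp
  set W' := Function.update W ρ (-I) with hW'def
  have hW' : ∀ x, (W' x).im < 0 := update_neg hW hI
  have h1 := Yv_le hA hW T ρ
  rw [← hW'def, GV_rho hA hW' hne T] at h1
  have e1 : W' ρ = -I := Function.update_self _ _ _
  have e2 : sgy A W' y ρ = sgy A W y ρ := sgy_upd hA hW hI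
  have e3 : Phi A W' y ρ = Phi A W y ρ := funext fun a => Phi_upd hA hW hne hI a
  rw [e1, e2, e3] at h1
  have h2 : ‖gw A W' y ρ‖ ^ 2 ≤ (sg A W' y).im := by
    have := gw_flux hA hW' y {ρ} (by simpa using hne)
    rw [Finset.sum_singleton, e1] at this
    simpa using this
  have h3 : ‖(-I - sgy A W y ρ)⁻¹ • T (Phi A W y ρ)‖ ^ 2 =
      ‖T (Phi A W y ρ)‖ ^ 2 / ‖-I - sgy A W y ρ‖ ^ 2 := by
    rw [norm_smul, norm_inv, mul_pow, inv_pow, div_eq_mul_inv, mul_comm]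
  have h4 : ‖(gw A W' y ρ * Gr A W' y y) • T (gw A W' y)‖ ^ 2 ≤
      (sg A W' y).im * ‖Gr A W' y y‖ ^ 2 * ‖T (gw A W' y)‖ ^ 2 := by
    rw [norm_smul, norm_mul, mul_pow, mul_pow]
    gcongr
  set a := (-I - sgy A W y ρ)⁻¹ • T (Phi A W y ρ) with ha
  set b := (gw A W' y ρ * Gr A W' y y) • T (gw A W' y) with hb
  have h5 : ‖a + b‖ ^ 2 ≤ 2 * ‖a‖ ^ 2 + 2 * ‖b‖ ^ 2 := by
    have := norm_add_le a b
    nlinarith [norm_nonneg (a + b), norm_nonneg a, norm_nonneg b, sq_nonneg (‖a‖ - ‖b‖)]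
  rw [h3] at h5
  linarith

/-- **the far vector of `y` at `W_ρ = -i`** against its value at a real potential of `ρ` -/
theorem T_gw_negI (hA : A.IsSymm) (hW : ∀ x, (W x).im < 0) (hne : y ≠ ρ) (he : -1 ≤ (W ρ).im)
    (T : (ι → ℂ) →ₗ[ℂ] F) {v Λ Um : ℝ} (hv : |v| ≤ Λ)
    (hU : ‖gw A (rez W ρ v) y ρ‖ ≤ Um) :
    ‖T (gw A (Function.update W ρ (-I)) y)‖ ^ 2 ≤ 2 * ‖T (gw A (rez W ρ v) y)‖ ^ 2 +
      2 * (Um ^ 2 * (Λ + 1) ^ 2) * (‖T (Phi A W y ρ)‖ ^ 2 / ‖-I - sgy A W y ρ‖ ^ 2) := by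
  have hI : ((-I : ℂ)).im < 0 := by simp
  have hvi : ((v : ℂ) + ((W ρ).im : ℂ) * I).im < 0 := by rw [rez_im]; exact hW ρ
  have hW' : ∀ x, (Function.update W ρ (-I) x).im < 0 := update_neg hW hI
  have hW'' := rez_neg hW ρ v
  have hU0 : 0 ≤ Um := (norm_nonneg _).trans hU
  have hΛ0 : 0 ≤ Λ := (abs_nonneg _).trans hv
  rw [T_gw_two hA hW' hne T, T_gw_two hA hW'' hne T]
  have e2 : sgy A (Function.update W ρ (-I)) y ρ = sgy A W y ρ := sgy_upd hA hW hI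
  have e3 : Phi A (Function.update W ρ (-I)) y ρ = Phi A W y ρ :=
    funext fun a => Phi_upd hA hW hne hI a
  have e4 : Gam A (Function.update W ρ (-I)) y ρ = Gam A W y ρ :=
    funext fun a => Gam_upd hA hW hI a
  have e5 : kap A (Function.update W ρ (-I)) y ρ = kap A W y ρ := kap_upd hA hW hI
  have f2 : sgy A (rez W ρ v) y ρ = sgy A W y ρ := sgy_upd hA hW hvi
  have f3 : Phi A (rez W ρ v) y ρ = Phi A W y ρ := funext fun a => Phi_upd hA hW hne hvi a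
  have f4 : Gam A (rez W ρ v) y ρ = Gam A W y ρ := funext fun a => Gam_upd hA hW hvi a
  have f5 : kap A (rez W ρ v) y ρ = kap A W y ρ := kap_upd hA hW hvi
  rw [gw_rho hA hW'' hne, f2, f5] at hU
  rw [e2, e3, e4, e5, f2, f3, f4, f5]
  have g1 : Function.update W ρ (-I) ρ = -I := Function.update_self _ _ _
  have g2 : rez W ρ v ρ = (v : ℂ) + ((W ρ).im : ℂ) * I := by
    rw [rez, Function.update_self]
  rw [g2] at hU
  rw [g1, g2]
  set s := sgy A W y ρ with hs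
  set k := kap A W y ρ with hk
  set w : ℂ := (v : ℂ) + ((W ρ).im : ℂ) * I with hw
  set Γ := T (Gam A W y ρ)
  set Φ := T (Phi A W y ρ)
  have hs0 : 0 ≤ s.im := sgy_im_nonneg hA hW hne
  have h1 : 0 < ‖-I - s‖ := lt_of_lt_of_le one_pos (norm_negI_sub s hs0).1
  have h2 : w - s ≠ 0 := by
    intro h
    have := congrArg Complex.im h
    rw [Complex.sub_im, Complex.zero_im, hw, rez_im] at this
    linarith [hW ρ]
  have h3 : -I - s ≠ 0 := norm_pos_iff.1 h1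
  have h4 : Γ + (k / (-I - s)) • Φ = (Γ + (k / (w - s)) • Φ) +
      ((k / (w - s)) * ((w + I) / (-I - s))) • Φ := by
    rw [add_assoc, ← add_smul]
    congr 2
    field_simp
    ring
  rw [h4]
  have h5 : ‖w + I‖ ≤ Λ + 1 := by
    have : w + I = (v : ℂ) + (((W ρ).im + 1 : ℝ) : ℂ) * I := by
      rw [hw]; push_cast; ring
    rw [this]
    refine (norm_add_le _ _).trans ?_
    rw [norm_mul, Complex.norm_real, Complex.norm_real, norm_I, mul_one, Real.norm_eq_abs,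
      Real.norm_eq_abs]
    have : |(W ρ).im + 1| ≤ 1 := by rw [abs_le]; constructor <;> linarith [hW ρ]
    linarith
  have h6 : ‖((k / (w - s)) * ((w + I) / (-I - s))) • Φ‖ ^ 2 ≤
      (Um ^ 2 * (Λ + 1) ^ 2) * (‖Φ‖ ^ 2 / ‖-I - s‖ ^ 2) := by
    rw [norm_smul, norm_mul, norm_div (w + I), mul_pow, mul_pow, div_pow]
    have h7 : ‖k / (w - s)‖ ^ 2 ≤ Um ^ 2 := pow_le_pow_left₀ (norm_nonneg _) hU 2
    have h8 : ‖w + I‖ ^ 2 ≤ (Λ + 1) ^ 2 := pow_le_pow_left₀ (norm_nonneg _) h5 2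
    calc ‖k / (w - s)‖ ^ 2 * (‖w + I‖ ^ 2 / ‖-I - s‖ ^ 2) * ‖Φ‖ ^ 2
        ≤ Um ^ 2 * ((Λ + 1) ^ 2 / ‖-I - s‖ ^ 2) * ‖Φ‖ ^ 2 := by gcongr
      _ = _ := by ring
  set a := Γ + (k / (w - s)) • Φ with ha
  set b := ((k / (w - s)) * ((w + I) / (-I - s))) • Φ with hb
  have h9 : ‖a + b‖ ^ 2 ≤ 2 * ‖a‖ ^ 2 + 2 * ‖b‖ ^ 2 := by
    have := norm_add_le a b
    nlinarith [norm_nonneg (a + b), norm_nonneg a, norm_nonneg b, sq_nonneg (‖a‖ - ‖b‖)]
  linarith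

/-- **variance**: `‖T Φ‖²/|-i - sgy|²` is controlled by the far vector of `y` on `S` -/
theorem Phi_le (hA : A.IsSymm) (hW : ∀ x, (W x).im < 0) (hne : y ≠ ρ) (he : -1 ≤ (W ρ).im)
    (T : (ι → ℂ) →ₗ[ℂ] F) {S : Set ℝ} (hS : MeasurableSet S) {Λ t dl : ℝ}
    (hSΛ : ∀ v ∈ S, |v| ≤ Λ) (hΛ : 0 ≤ Λ) (ht : 0 < t) (hSt : ENNReal.ofReal t ≤ volume S)
    (hdl : 0 < dl) (hg : ∀ v ∈ S, dl ≤ ‖gw A (rez W ρ v) y ρ‖) :
    ENNReal.ofReal (‖T (Phi A W y ρ)‖ ^ 2 / ‖-I - sgy A W y ρ‖ ^ 2) ≤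
      ENNReal.ofReal ((Λ + 2) ^ 2 * 256 / (3 * t ^ 3 * dl ^ 2)) *
        ∫⁻ v in S, ENNReal.ofReal (‖T (gw A (rez W ρ v) y)‖ ^ 2) := by
  set s := sgy A W y ρ with hs
  set s' : ℂ := s - ((W ρ).im : ℂ) * I with hs'
  have hs0 : 0 ≤ s.im := sgy_im_nonneg hA hW hne
  have hvi : ∀ v : ℝ, ((v : ℂ) + ((W ρ).im : ℂ) * I).im < 0 := by
    intro v; rw [rez_im]; exact hW ρ
  have hrep : ∀ v : ℝ, T (gw A (rez W ρ v) y) = T (Gam A W y ρ) +
      (kap A W y ρ / ((v : ℂ) - s')) • T (Phi A W y ρ) := by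
    intro v
    rw [T_gw_two hA (rez_neg hW ρ v) hne T]
    have f2 : sgy A (rez W ρ v) y ρ = s := sgy_upd hA hW (hvi v)
    have f3 : Phi A (rez W ρ v) y ρ = Phi A W y ρ := funext fun a => Phi_upd hA hW hne (hvi v) a
    have f4 : Gam A (rez W ρ v) y ρ = Gam A W y ρ := funext fun a => Gam_upd hA hW (hvi v) a
    have f5 : kap A (rez W ρ v) y ρ = kap A W y ρ := kap_upd hA hW (hvi v)
    have g2 : rez W ρ v ρ = (v : ℂ) + ((W ρ).im : ℂ) * I := by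
      rw [rez, Function.update_self]
    rw [f2, f3, f4, f5, g2, hs']
    congr 3
    ring
  have hκ : ∀ v ∈ S, dl ≤ ‖kap A W y ρ / ((v : ℂ) - s')‖ := by
    intro v hv
    have h1 := hg v hv
    rw [gw_rho hA (rez_neg hW ρ v) hne] at h1
    have f2 : sgy A (rez W ρ v) y ρ = s := sgy_upd hA hW (hvi v)
    have f5 : kap A (rez W ρ v) y ρ = kap A W y ρ := kap_upd hA hW (hvi v)
    have g2 : rez W ρ v ρ = (v : ℂ) + ((W ρ).im : ℂ) * I := by
      rw [rez, Function.update_self]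
    rw [f2, f5, g2] at h1
    rwa [hs', show (v : ℂ) - (s - ((W ρ).im : ℂ) * I) = (v : ℂ) + ((W ρ).im : ℂ) * I - s by ring]
  have h := var_vec hS hSΛ ht hSt hdl hκ (T (Gam A W y ρ)) (T (Phi A W y ρ))
  simp only [← hrep] at h
  have hn := norm_negI_sub s hs0
  have h1 : Λ + ‖s'‖ ≤ (Λ + 2) * ‖-I - s‖ := by
    have h2 : ‖s'‖ ≤ ‖s‖ + 1 := by
      rw [hs']
      refine (norm_sub_le _ _).trans ?_
      rw [norm_mul, norm_I, mul_one, Complex.norm_real, Real.norm_eq_abs]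
      have : |(W ρ).im| ≤ 1 := by rw [abs_le]; constructor <;> linarith [hW ρ]
      linarith
    nlinarith [hn.1, hn.2]
  have hpos : 0 < ‖-I - s‖ := lt_of_lt_of_le one_pos hn.1
  have hL0 : 0 ≤ Λ + ‖s'‖ := by positivity
  have h2 : ‖T (Phi A W y ρ)‖ ^ 2 / ‖-I - s‖ ^ 2 ≤ ((Λ + 2) ^ 2 * 256 / (3 * t ^ 3 * dl ^ 2)) *
      (3 / 256 * t ^ 3 * dl ^ 2 * ‖T (Phi A W y ρ)‖ ^ 2 / (Λ + ‖s'‖) ^ 2) := by
    by_cases hL : Λ + ‖s'‖ = 0
    · exfalso
      have hΛ0 : Λ = 0 := by linarith [norm_nonneg s', hΛ]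
      have hsub : S ⊆ {0} := by
        intro v hv
        have := hSΛ v hv
        rw [hΛ0] at this
        exact abs_eq_zero.mp (le_antisymm this (abs_nonneg v))
      have hz : volume S = 0 := measure_mono_null hsub (by simp)
      rw [hz] at hSt
      exact absurd hSt (not_le.mpr (ENNReal.ofReal_pos.mpr ht))
    · have hLp : 0 < Λ + ‖s'‖ := lt_of_le_of_ne hL0 (Ne.symm hL)
      have h3 : (Λ + ‖s'‖) ^ 2 ≤ (Λ + 2) ^ 2 * ‖-I - s‖ ^ 2 := by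
        rw [← mul_pow]; exact pow_le_pow_left₀ hL0 h1 2
      have h4 : ((Λ + 2) ^ 2 * 256 / (3 * t ^ 3 * dl ^ 2)) *
          (3 / 256 * t ^ 3 * dl ^ 2 * ‖T (Phi A W y ρ)‖ ^ 2 / (Λ + ‖s'‖) ^ 2) =
          ‖T (Phi A W y ρ)‖ ^ 2 * ((Λ + 2) ^ 2 / (Λ + ‖s'‖) ^ 2) := by
        field_simp
      rw [h4, div_eq_mul_inv]
      refine mul_le_mul_of_nonneg_left ?_ (sq_nonneg _)
      rw [le_div_iff₀ (by positivity), inv_mul_le_iff₀ (by positivity)]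
      linarith
  calc ENNReal.ofReal (‖T (Phi A W y ρ)‖ ^ 2 / ‖-I - s‖ ^ 2)
      ≤ ENNReal.ofReal (((Λ + 2) ^ 2 * 256 / (3 * t ^ 3 * dl ^ 2)) *
      (3 / 256 * t ^ 3 * dl ^ 2 * ‖T (Phi A W y ρ)‖ ^ 2 / (Λ + ‖s'‖) ^ 2)) :=
        ENNReal.ofReal_le_ofReal h2
    _ = ENNReal.ofReal ((Λ + 2) ^ 2 * 256 / (3 * t ^ 3 * dl ^ 2)) * ENNReal.ofReal
      (3 / 256 * t ^ 3 * dl ^ 2 * ‖T (Phi A W y ρ)‖ ^ 2 / (Λ + ‖s'‖) ^ 2) :=
        ENNReal.ofReal_mul (by positivity)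
    _ ≤ _ := by gcongr

/-- abstract combination of the three steps -/
theorem combine {S : Set ℝ} (hS : MeasurableSet S) {t : ℝ} (ht : 0 < t)
    (hSt : ENNReal.ofReal t ≤ volume S) (hSf : volume S ≠ ⊤) {X a : ℝ≥0∞} {N : ℝ → ℝ≥0∞}
    {c1 c2 c3 : ℝ≥0∞} (ha : a ≤ c3 * ∫⁻ v in S, N v) (hX : ∀ v ∈ S, X ≤ c1 * a + c2 * N v)
    (hc2 : c2 ≠ ⊤) :
    X ≤ (c1 * c3 + c2 / ENNReal.ofReal t) * ∫⁻ v in S, N v := by
  set J := ∫⁻ v in S, N v with hJ
  have ht0 : ENNReal.ofReal t ≠ 0 := (ENNReal.ofReal_pos.2 ht).ne'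
  have hV0 : volume S ≠ 0 := fun h => by
    rw [h] at hSt
    exact ht0 (le_antisymm hSt (zero_le))
  have h1 : X * volume S ≤ (c1 * c3 * J) * volume S + c2 * J := by
    calc X * volume S = ∫⁻ _v in S, X := (setLIntegral_const _ _).symm
      _ ≤ ∫⁻ v in S, (c1 * a + c2 * N v) := setLIntegral_mono' hS fun v hv => hX v hv
      _ = c1 * a * volume S + c2 * J := by
          rw [lintegral_add_left measurable_const, setLIntegral_const,
            lintegral_const_mul' _ _ hc2]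
      _ ≤ _ := by
          have hh : c1 * a ≤ c1 * c3 * J := by
            calc c1 * a ≤ c1 * (c3 * J) := by gcongr
              _ = c1 * c3 * J := by ring
          gcongr ?_ * volume S + c2 * J
  have h2 : c2 * J ≤ (c2 / ENNReal.ofReal t * J) * volume S := by
    calc c2 * J = (c2 / ENNReal.ofReal t * ENNReal.ofReal t) * J := by
          rw [ENNReal.div_mul_cancel ht0 ENNReal.ofReal_ne_top]
      _ = (c2 / ENNReal.ofReal t * J) * ENNReal.ofReal t := by ring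
      _ ≤ _ := by gcongr
  have h3 : X * volume S ≤ ((c1 * c3 + c2 / ENNReal.ofReal t) * J) * volume S := by
    calc X * volume S ≤ (c1 * c3 * J) * volume S + (c2 / ENNReal.ofReal t * J) * volume S :=
          h1.trans (by gcongr)
      _ = _ := by ring
  exact (ENNReal.mul_le_mul_iff_left hV0 hSf).1 h3

/-- constant of `rho_to_centre` -/
noncomputable def K1 (Λ t dl Um q K0 cT : ℝ) : ℝ :=
  ((4 + 8 * q * (Um ^ 2 * (Λ + 1) ^ 2)) * ((Λ + 2) ^ 2 * 256 / (3 * t ^ 3 * dl ^ 2)) +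
    8 * q / t) * (K0 / cT)

/-- core: `X` = anything bounded by `4 ‖TΦ‖²/|-i-sgy|² + 4 q ‖T g'‖²` -/
theorem to_centre_core (hA : A.IsSymm) (hW : ∀ x, (W x).im < 0) (hne : y ≠ ρ)
    (he : -1 ≤ (W ρ).im) (T : (ι → ℂ) →ₗ[ℂ] F) {νρ νy : Measure ℝ} {S : Set ℝ}
    (hS : MeasurableSet S) {Λ t dl Um q K0 cT : ℝ} (hΛ : 0 ≤ Λ)
    (hSΛ : ∀ v ∈ S, |v| ≤ Λ) (ht : 0 < t) (hSt : ENNReal.ofReal t ≤ volume S)
    (hdl : 0 < dl) (hcT : 0 < cT) (hq : 0 ≤ q) (hK0 : 0 ≤ K0)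
    (hνρ : ENNReal.ofReal cT • (volume : Measure ℝ).restrict S ≤ νρ)
    (hg : ∀ v ∈ S, dl ≤ ‖gw A (rez W ρ v) y ρ‖ ∧ ‖gw A (rez W ρ v) y ρ‖ ≤ Um)
    (hlow : ∀ v ∈ S, ENNReal.ofReal (‖T (gw A (rez W ρ v) y)‖ ^ 2) ≤ ENNReal.ofReal K0 *
      ∫⁻ vy, ENNReal.ofReal (‖GV A (rez (rez W ρ v) y vy) T y‖ ^ 2) ∂νy)
    {X : ℝ≥0∞} (hX : X ≤ 4 * ENNReal.ofReal (‖T (Phi A W y ρ)‖ ^ 2 / ‖-I - sgy A W y ρ‖ ^ 2) +
      4 * ENNReal.ofReal q *
        ENNReal.ofReal (‖T (gw A (Function.update W ρ (-I)) y)‖ ^ 2)) :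
    X ≤ ENNReal.ofReal (K1 Λ t dl Um q K0 cT) * ∫⁻ v, ∫⁻ vy,
      ENNReal.ofReal (‖GV A (rez (rez W ρ v) y vy) T y‖ ^ 2) ∂νy ∂νρ := by
  set a := ENNReal.ofReal (‖T (Phi A W y ρ)‖ ^ 2 / ‖-I - sgy A W y ρ‖ ^ 2) with ha
  set N : ℝ → ℝ≥0∞ := fun v => ENNReal.ofReal (‖T (gw A (rez W ρ v) y)‖ ^ 2) with hN
  set R : ℝ → ℝ≥0∞ := fun v => ∫⁻ vy, ENNReal.ofReal (‖GV A (rez (rez W ρ v) y vy) T y‖ ^ 2) ∂νy
    with hR
  have hSf : volume S ≠ ⊤ := by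
    have : volume S ≤ volume (Set.Icc (-Λ) Λ) := measure_mono fun v hv => abs_le.1 (hSΛ v hv)
    rw [Real.volume_Icc] at this
    exact (this.trans_lt ENNReal.ofReal_lt_top).ne
  have h1 := Phi_le hA hW hne he T hS hSΛ hΛ ht hSt hdl fun v hv => (hg v hv).1
  have h2 : ∀ v ∈ S, X ≤ ENNReal.ofReal (4 + 8 * q * (Um ^ 2 * (Λ + 1) ^ 2)) * a +
      ENNReal.ofReal (8 * q) * N v := by
    intro v hv
    have h3 := T_gw_negI hA hW hne he T (hSΛ v hv) (hg v hv).2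
    have h4 : ENNReal.ofReal (‖T (gw A (Function.update W ρ (-I)) y)‖ ^ 2) ≤
        2 * N v + ENNReal.ofReal (2 * (Um ^ 2 * (Λ + 1) ^ 2)) * a := by
      refine (ENNReal.ofReal_le_ofReal h3).trans ?_
      have e2 : ENNReal.ofReal (2 : ℝ) = 2 := by simp
      rw [ENNReal.ofReal_add (by positivity) (by positivity),
        ENNReal.ofReal_mul (p := 2) (q := ‖T (gw A (rez W ρ v) y)‖ ^ 2) (by norm_num),
        ENNReal.ofReal_mul (p := 2 * (Um ^ 2 * (Λ + 1) ^ 2)) (by positivity), e2]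
    refine hX.trans ?_
    calc 4 * a + 4 * ENNReal.ofReal q *
          ENNReal.ofReal (‖T (gw A (Function.update W ρ (-I)) y)‖ ^ 2)
        ≤ 4 * a + 4 * ENNReal.ofReal q *
          (2 * N v + ENNReal.ofReal (2 * (Um ^ 2 * (Λ + 1) ^ 2)) * a) := by gcongr
      _ = _ := by
          rw [ENNReal.ofReal_add (by norm_num) (by positivity),
            ENNReal.ofReal_mul (p := 8 * q) (by positivity), ENNReal.ofReal_mul (p := 8) (by norm_num),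
            ENNReal.ofReal_mul (p := 2) (by norm_num)]
          have e4 : ENNReal.ofReal 4 = 4 := by simp
          have e8 : ENNReal.ofReal 8 = 8 := by simp
          have e2 : ENNReal.ofReal 2 = 2 := by simp
          rw [e4, e8, e2]
          ring
  have h5 := combine hS ht hSt hSf h1 h2 ENNReal.ofReal_ne_top
  have h6 : ∫⁻ v in S, N v ≤ ENNReal.ofReal (K0 / cT) * ∫⁻ v, R v ∂νρ := by
    calc ∫⁻ v in S, N v ≤ ∫⁻ v in S, ENNReal.ofReal K0 * R v :=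
          setLIntegral_mono' hS fun v hv => hlow v hv
      _ = ENNReal.ofReal K0 * ∫⁻ v in S, R v := lintegral_const_mul' _ _ ENNReal.ofReal_ne_top
      _ = ENNReal.ofReal (K0 / cT) * (ENNReal.ofReal cT * ∫⁻ v in S, R v) := by
          rw [← mul_assoc, ← ENNReal.ofReal_mul (by positivity), div_mul_cancel₀ _ hcT.ne']
      _ = ENNReal.ofReal (K0 / cT) *
            ∫⁻ v, R v ∂(ENNReal.ofReal cT • (volume : Measure ℝ).restrict S) := by
          rw [lintegral_smul_measure, smul_eq_mul]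
      _ ≤ _ := mul_le_mul_right (lintegral_mono' hνρ le_rfl) _
  refine h5.trans ?_
  calc (ENNReal.ofReal (4 + 8 * q * (Um ^ 2 * (Λ + 1) ^ 2)) *
          ENNReal.ofReal ((Λ + 2) ^ 2 * 256 / (3 * t ^ 3 * dl ^ 2)) +
          ENNReal.ofReal (8 * q) / ENNReal.ofReal t) * ∫⁻ v in S, N v
      ≤ (ENNReal.ofReal (4 + 8 * q * (Um ^ 2 * (Λ + 1) ^ 2)) *
          ENNReal.ofReal ((Λ + 2) ^ 2 * 256 / (3 * t ^ 3 * dl ^ 2)) +
          ENNReal.ofReal (8 * q) / ENNReal.ofReal t) *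
            (ENNReal.ofReal (K0 / cT) * ∫⁻ v, R v ∂νρ) := by gcongr
    _ = ENNReal.ofReal (K1 Λ t dl Um q K0 cT) * ∫⁻ v, R v ∂νρ := by
        rw [← mul_assoc, ← ENNReal.ofReal_div_of_pos ht, ← ENNReal.ofReal_mul (by positivity),
          ← ENNReal.ofReal_add (by positivity) (by positivity),
          ← ENNReal.ofReal_mul (by positivity), K1]

/-- **(5) + (6), real `W_y`**: from the rim site `ρ` to the centre `y` -/
theorem rho_to_centre (hA : A.IsSymm) (hW : ∀ x, (W x).im < 0) (hne : y ≠ ρ)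
    (he : -1 ≤ (W ρ).im) (T : (ι → ℂ) →ₗ[ℂ] F) {νρ νy : Measure ℝ} [IsProbabilityMeasure νy]
    {S : Set ℝ} (hS : MeasurableSet S) {Λ t dl Um Dy K0 cT : ℝ} (hΛ : 0 ≤ Λ)
    (hSΛ : ∀ v ∈ S, |v| ≤ Λ) (ht : 0 < t) (hSt : ENNReal.ofReal t ≤ volume S)
    (hdl : 0 < dl) (hcT : 0 < cT) (hDy : 0 ≤ Dy) (hK0 : 0 ≤ K0)
    (hνρ : ENNReal.ofReal cT • (volume : Measure ℝ).restrict S ≤ νρ)
    (hνy : νy ≤ ENNReal.ofReal Dy • (volume : Measure ℝ))
    (hg : ∀ v ∈ S, dl ≤ ‖gw A (rez W ρ v) y ρ‖ ∧ ‖gw A (rez W ρ v) y ρ‖ ≤ Um)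
    (hlow : ∀ v ∈ S, ENNReal.ofReal (‖T (gw A (rez W ρ v) y)‖ ^ 2) ≤ ENNReal.ofReal K0 *
      ∫⁻ vy, ENNReal.ofReal (‖GV A (rez (rez W ρ v) y vy) T y‖ ^ 2) ∂νy) :
    ∫⁻ vy, ENNReal.ofReal (Yv A (rez W y vy) T ρ) ∂νy ≤
      ENNReal.ofReal (K1 Λ t dl Um (Real.pi * Dy) K0 cT) * ∫⁻ v, ∫⁻ vy,
        ENNReal.ofReal (‖GV A (rez (rez W ρ v) y vy) T y‖ ^ 2) ∂νy ∂νρ := by
  refine to_centre_core hA hW hne he T hS hΛ hSΛ ht hSt hdl hcT (by positivity) hK0 hνρ hg hlow ?_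
  have hI : ((-I : ℂ)).im < 0 := by simp
  have hW' : ∀ x, (Function.update W ρ (-I) x).im < 0 := update_neg hW hI
  set V' := Function.update W ρ (-I) with hV'
  set σ := sz A V' y with hσ
  set N := ‖T (gw A V' y)‖ ^ 2 with hN
  set a := ‖T (Phi A W y ρ)‖ ^ 2 / ‖-I - sgy A W y ρ‖ ^ 2 with ha
  have hσ0 : 0 < σ.im := sz_im_pos hA hW' y
  have hpt : ∀ vy : ℝ, ENNReal.ofReal (Yv A (rez W y vy) T ρ) ≤
      4 * ENNReal.ofReal a + 4 * ENNReal.ofReal N *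
        ENNReal.ofReal (σ.im / ‖(vy : ℂ) - σ‖ ^ 2) := by
    intro vy
    have hvi : ((vy : ℂ) + ((W y).im : ℂ) * I).im < 0 := by rw [rez_im]; exact hW y
    have h1 := Yv_rho_le hA (rez_neg hW y vy) hne T
    have e1 : Phi A (rez W y vy) y ρ = Phi A W y ρ := funext fun b => Phi_upd_y hA hW hvi b
    have e2 : sgy A (rez W y vy) y ρ = sgy A W y ρ := sgy_upd_y hA hW hne hvi
    have e3 : Function.update (rez W y vy) ρ (-I) = rez V' y vy :=
      (rez_update_comm hne.symm (-I) vy).symm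
    have hvi' : ((vy : ℂ) + ((V' y).im : ℂ) * I).im < 0 := by rw [rez_im]; exact hW' y
    have e4 : gw A (rez V' y vy) y = gw A V' y := funext fun b => gw_upd hA hW' hvi' b
    have e5 : sg A (rez V' y vy) y = sg A V' y := sg_upd hA hW' hvi'
    rw [e1, e2, e3, e4, e5, Gr_rez hA hW', ← hσ, ← ha, ← hN, norm_inv, inv_pow] at h1
    have h2 : (sg A V' y).im ≤ σ.im := by
      rw [hσ, sz_im]; linarith [hW' y]
    have h3 : 0 ≤ (‖(vy : ℂ) - σ‖ ^ 2)⁻¹ := by positivity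
    have h4 : Yv A (rez W y vy) T ρ ≤ 4 * a + 4 * N * (σ.im / ‖(vy : ℂ) - σ‖ ^ 2) := by
      have h5 : (sg A V' y).im * (‖(vy : ℂ) - σ‖ ^ 2)⁻¹ * N ≤
          σ.im * (‖(vy : ℂ) - σ‖ ^ 2)⁻¹ * N := by
        gcongr
      rw [div_eq_mul_inv]
      linarith
    refine (ENNReal.ofReal_le_ofReal h4).trans (le_of_eq ?_)
    rw [ENNReal.ofReal_add (by positivity) (by positivity), ENNReal.ofReal_mul (by norm_num),
      ENNReal.ofReal_mul (by positivity), ENNReal.ofReal_mul (by norm_num)]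
    simp
  calc ∫⁻ vy, ENNReal.ofReal (Yv A (rez W y vy) T ρ) ∂νy
      ≤ ∫⁻ vy : ℝ, (4 * ENNReal.ofReal a + 4 * ENNReal.ofReal N *
        ENNReal.ofReal (σ.im / ‖(vy : ℂ) - σ‖ ^ 2)) ∂νy := lintegral_mono hpt
    _ = 4 * ENNReal.ofReal a + 4 * ENNReal.ofReal N *
        ∫⁻ vy : ℝ, ENNReal.ofReal (σ.im / ‖(vy : ℂ) - σ‖ ^ 2) ∂νy := by
        rw [lintegral_add_left measurable_const, lintegral_const, measure_univ, mul_one,
          lintegral_const_mul' _ _ (ENNReal.mul_ne_top (by simp) ENNReal.ofReal_ne_top)]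
    _ ≤ 4 * ENNReal.ofReal a + 4 * ENNReal.ofReal N *
        (ENNReal.ofReal Dy * ENNReal.ofReal Real.pi) := by
        gcongr
        exact lint_kernel hνy hσ0
    _ = _ := by
        rw [← ENNReal.ofReal_mul hDy, mul_comm Dy]
        ring

/-- **(5) + (6), frozen `W_y = -i` on the left side** -/
theorem rho_to_centre' (hA : A.IsSymm) (hW : ∀ x, (W x).im < 0) (hne : y ≠ ρ)
    (he : -1 ≤ (W ρ).im) (T : (ι → ℂ) →ₗ[ℂ] F) {νρ νy : Measure ℝ}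
    {S : Set ℝ} (hS : MeasurableSet S) {Λ t dl Um K0 cT : ℝ} (hΛ : 0 ≤ Λ)
    (hSΛ : ∀ v ∈ S, |v| ≤ Λ) (ht : 0 < t) (hSt : ENNReal.ofReal t ≤ volume S)
    (hdl : 0 < dl) (hcT : 0 < cT) (hK0 : 0 ≤ K0)
    (hνρ : ENNReal.ofReal cT • (volume : Measure ℝ).restrict S ≤ νρ)
    (hg : ∀ v ∈ S, dl ≤ ‖gw A (rez W ρ v) y ρ‖ ∧ ‖gw A (rez W ρ v) y ρ‖ ≤ Um)
    (hlow : ∀ v ∈ S, ENNReal.ofReal (‖T (gw A (rez W ρ v) y)‖ ^ 2) ≤ ENNReal.ofReal K0 *
      ∫⁻ vy, ENNReal.ofReal (‖GV A (rez (rez W ρ v) y vy) T y‖ ^ 2) ∂νy) :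
    ENNReal.ofReal (Yv A (Function.update W y (-I)) T ρ) ≤
      ENNReal.ofReal (K1 Λ t dl Um 1 K0 cT) * ∫⁻ v, ∫⁻ vy,
        ENNReal.ofReal (‖GV A (rez (rez W ρ v) y vy) T y‖ ^ 2) ∂νy ∂νρ := by
  refine to_centre_core hA hW hne he T hS hΛ hSΛ ht hSt hdl hcT zero_le_one hK0 hνρ hg hlow ?_
  have hI : ((-I : ℂ)).im < 0 := by simp
  have hW' : ∀ x, (Function.update W ρ (-I) x).im < 0 := update_neg hW hI
  have hWy : ∀ x, (Function.update W y (-I) x).im < 0 := update_neg hW hI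
  set V' := Function.update W ρ (-I) with hV'
  have h1 := Yv_rho_le hA hWy hne T
  have e1 : Phi A (Function.update W y (-I)) y ρ = Phi A W y ρ :=
    funext fun b => Phi_upd_y hA hW hI b
  have e2 : sgy A (Function.update W y (-I)) y ρ = sgy A W y ρ := sgy_upd_y hA hW hne hI
  have e3 : Function.update (Function.update W y (-I)) ρ (-I) = Function.update V' y (-I) := by
    rw [hV', Function.update_comm hne]
  have e4 : gw A (Function.update V' y (-I)) y = gw A V' y := funext fun b => gw_upd hA hW' hI b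
  have e5 : sg A (Function.update V' y (-I)) y = sg A V' y := sg_upd hA hW' hI
  rw [e1, e2, e3, e4, e5, Gr_zz_upd hA hW' hI, norm_inv, inv_pow] at h1
  set N := ‖T (gw A V' y)‖ ^ 2 with hN
  set a := ‖T (Phi A W y ρ)‖ ^ 2 / ‖-I - sgy A W y ρ‖ ^ 2 with ha
  have hs := sg_im_nonneg hA hW' y
  have h2 : ‖-I - sg A V' y‖ ^ 2 = (sg A V' y).re ^ 2 + (1 + (sg A V' y).im) ^ 2 := by
    rw [← Complex.normSq_eq_norm_sq, Complex.normSq_apply]
    simp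
    ring
  have h3 : (sg A V' y).im * (‖-I - sg A V' y‖ ^ 2)⁻¹ ≤ 1 := by
    have h4 : 0 < ‖-I - sg A V' y‖ ^ 2 := by rw [h2]; nlinarith [sq_nonneg (sg A V' y).re]
    rw [← div_eq_mul_inv, div_le_one h4, h2]
    nlinarith [sq_nonneg (sg A V' y).re]
  have h4 : Yv A (Function.update W y (-I)) T ρ ≤ 4 * a + 4 * N := by
    have h5 : (sg A V' y).im * (‖-I - sg A V' y‖ ^ 2)⁻¹ * N ≤ 1 * N :=
      mul_le_mul_of_nonneg_right h3 (sq_nonneg _)
    linarith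
  refine (ENNReal.ofReal_le_ofReal h4).trans (le_of_eq ?_)
  rw [ENNReal.ofReal_add (by positivity) (by positivity), ENNReal.ofReal_mul (by norm_num),
    ENNReal.ofReal_mul (by norm_num)]
  simp

end H417

end P365T1
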