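import Mathlib

/-!
# P365 T1, helper417: the 3G inequality and stable windows

`GR A V = (A + diag V)⁻¹` for a real symmetric matrix `A` and a real potential `V` on a finite set.

* `exists_3G`: in every box `|V x - V0 x| ≤ w` there is a `V` with `A + diag V` invertible and
  `|G a z * G z b| ≤ Q * |G a b|` for all `a b z`, `Q = 8 N^3 / w`.
* `stable`: then, for every `V'` with `|V' - V| ≤ w'`, `2 N Q w' ≤ 1`, all entries of the Green matrix
  change by a relative amount `≤ 2 N Q w'`.
-/

set_option autoImplicit false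
set_option linter.all false

open Matrix MeasureTheory Set
open scoped ENNReal

namespace P365T1.H417

variable {X : Type*} [Fintype X] [DecidableEq X]

/-- real Green matrix -/
noncomputable def GR (A : Matrix X X ℝ) (V : X → ℝ) : Matrix X X ℝ := (A + Matrix.diagonal V)⁻¹

theorem MV_update (A : Matrix X X ℝ) (V : X → ℝ) (z : X) (t : ℝ) :
    A + Matrix.diagonal (Function.update V z (V z + t)) =
      (A + Matrix.diagonal V) + Matrix.single z z t := by
  ext i j
  simp only [Matrix.add_apply, Matrix.diagonal_apply, Matrix.single_apply]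
  by_cases hij : i = j
  · subst hij
    by_cases hz : z = i
    · subst hz; simp; ring
    · have : i ≠ z := fun h => hz h.symm
      simp [Function.update_of_ne this, hz]
  · by_cases hz : z = i
    · subst hz; simp [hij]
    · simp [hij, hz]

theorem right_inv_update {A : Matrix X X ℝ} {V : X → ℝ} (h0 : (A + Matrix.diagonal V).det ≠ 0)
    (z : X) (t : ℝ) (ht : 1 + t * GR A V z z ≠ 0) :
    (A + Matrix.diagonal (Function.update V z (V z + t))) *
      (Matrix.of fun a b => GR A V a b - t / (1 + t * GR A V z z) * (GR A V a z * GR A V z b)) = 1 := by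
  have hM : (A + Matrix.diagonal V) * GR A V = 1 := by
    unfold GR
    exact Matrix.mul_nonsing_inv _ (isUnit_iff_ne_zero.2 h0)
  rw [MV_update]
  set M := A + Matrix.diagonal V with hMdef
  set G := GR A V with hG
  have hsplit : (Matrix.of fun a b => G a b - t / (1 + t * G z z) * (G a z * G z b)) =
      G - (t / (1 + t * G z z)) • (G * Matrix.single z z 1 * G) := by
    ext a b
    simp [Matrix.sub_apply, Matrix.smul_apply, Matrix.mul_apply, Matrix.single_apply,
      Finset.sum_mul, Finset.mul_sum, ite_and]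
  have hs : (Matrix.single z z t : Matrix X X ℝ) = t • Matrix.single z z 1 := by
    ext a b; simp [Matrix.single_apply]
  have hzz : Matrix.single z z (1 : ℝ) * G * Matrix.single z z 1 = G z z • Matrix.single z z 1 := by
    ext a b
    simp only [Matrix.mul_apply, Matrix.single_apply, Matrix.smul_apply, smul_eq_mul]
    by_cases ha : z = a <;> by_cases hb : z = b <;>
      simp [ha, hb, ite_and, Finset.sum_ite_eq, Finset.sum_ite_eq']
  rw [hsplit, hs]
  have e1 : (M + t • Matrix.single z z (1 : ℝ)) *
      (G - (t / (1 + t * G z z)) • (G * Matrix.single z z 1 * G)) =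
      M * G + t • (Matrix.single z z 1 * G) -
        (t / (1 + t * G z z)) • (M * G * Matrix.single z z 1 * G) -
        (t / (1 + t * G z z) * t) • ((Matrix.single z z 1 * G * Matrix.single z z 1) * G) := by
    simp only [add_mul, mul_sub, Matrix.mul_smul, Matrix.smul_mul, Matrix.mul_assoc, smul_smul]
    abel
  rw [e1, hzz, hM, Matrix.one_mul, Matrix.smul_mul, smul_smul]
  have e2 : (1 : Matrix X X ℝ) + t • (Matrix.single z z 1 * G) -
      (t / (1 + t * G z z)) • (Matrix.single z z 1 * G) -
      (t / (1 + t * G z z) * t * G z z) • (Matrix.single z z 1 * G) =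
      1 + (t - t / (1 + t * G z z) - t / (1 + t * G z z) * t * G z z) •
        (Matrix.single z z 1 * G) := by
    rw [sub_smul, sub_smul]; abel
  rw [e2]
  have e3 : t - t / (1 + t * G z z) - t / (1 + t * G z z) * t * G z z = 0 := by
    field_simp; ring
  rw [e3, zero_smul, add_zero]

theorem det_update {A : Matrix X X ℝ} {V : X → ℝ} (h0 : (A + Matrix.diagonal V).det ≠ 0)
    (z : X) (t : ℝ) (ht : 1 + t * GR A V z z ≠ 0) :
    (A + Matrix.diagonal (Function.update V z (V z + t))).det ≠ 0 := by
  have h := right_inv_update h0 z t ht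
  intro hd
  have := congrArg Matrix.det h
  rw [Matrix.det_mul, hd, zero_mul, Matrix.det_one] at this
  exact zero_ne_one this

theorem det_upd {A : Matrix X X ℝ} {V : X → ℝ} (h0 : (A + Matrix.diagonal V).det ≠ 0)
    (z : X) (t : ℝ) :
    (A + Matrix.diagonal (Function.update V z (V z + t))).det =
      (A + Matrix.diagonal V).det * (1 + t * GR A V z z) := by
  rw [MV_update]
  have : (A + Matrix.diagonal V) + Matrix.single z z t =
      (A + Matrix.diagonal V) * (1 + GR A V * Matrix.single z z t) := by
    rw [mul_add, mul_one, ← Matrix.mul_assoc]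
    unfold GR
    rw [Matrix.mul_nonsing_inv _ (isUnit_iff_ne_zero.2 h0), Matrix.one_mul]
  rw [this, Matrix.det_mul]
  congr 1
  have e : GR A V * Matrix.single z z t =
      Matrix.replicateCol Unit (fun i => GR A V i z * t) *
        Matrix.replicateRow Unit (Pi.single z (1 : ℝ)) := by
    ext i j
    simp [Matrix.mul_apply, Matrix.single_apply, Matrix.replicateCol_apply,
      Matrix.replicateRow_apply, Pi.single_apply, ite_and, eq_comm]
  rw [e, Matrix.det_one_add_replicateCol_mul_replicateRow]
  simp [dotProduct, Pi.single_apply]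
  ring

theorem GR_update {A : Matrix X X ℝ} {V : X → ℝ} (h0 : (A + Matrix.diagonal V).det ≠ 0)
    (z : X) (t : ℝ) (ht : 1 + t * GR A V z z ≠ 0) (a b : X) :
    GR A (Function.update V z (V z + t)) a b =
      GR A V a b - t / (1 + t * GR A V z z) * (GR A V a z * GR A V z b) := by
  have h := Matrix.inv_eq_right_inv (right_inv_update h0 z t ht)
  unfold GR at h ⊢
  rw [h, Matrix.of_apply]

/-- two affine functions with Wronskian one -/
theorem wronskian {u0 u1 v0 v1 ε : ℝ} (hε : 0 < ε) (hW : u1 * v0 - v1 * u0 = 1) :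
    ∃ r1 r2 : ℝ, {t : ℝ | |(u0 + t * u1) * (v0 + t * v1)| < ε} ⊆
      Metric.ball r1 (2 * ε) ∪ Metric.ball r2 (2 * ε) := by
  refine ⟨-(u0 / u1), -(v0 / v1), ?_⟩
  intro t ht
  simp only [mem_setOf_eq] at ht
  set u := u0 + t * u1 with hu
  set v := v0 + t * v1 with hv
  have hW' : u1 * v - v1 * u = 1 := by rw [hu, hv]; linarith
  have hkey : 1 ≤ |u1 * v| + |v1 * u| := by
    calc (1 : ℝ) = |u1 * v - v1 * u| := by rw [hW', abs_one]
      _ ≤ |u1 * v| + |v1 * u| := abs_sub _ _
  rcases le_or_gt (1 / 2) |u1 * v| with h | h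
  · left
    have hu1 : u1 ≠ 0 := by rintro rfl; norm_num at h
    have hu1p : 0 < |u1| := abs_pos.2 hu1
    have e : |t - -(u0 / u1)| * |u1| = |u| := by
      rw [← abs_mul, hu]; congr 1; field_simp; ring
    rw [Metric.mem_ball, Real.dist_eq]
    by_contra hc
    push Not at hc
    have h1 : 2 * ε * |u1| ≤ |u| := by rw [← e]; exact mul_le_mul_of_nonneg_right hc hu1p.le
    have h2 : ε ≤ |u * v| := by
      rw [abs_mul]
      rw [abs_mul] at h
      have hv0 : 0 ≤ |v| := abs_nonneg v
      nlinarith
    linarith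
  · right
    have h' : 1 / 2 ≤ |v1 * u| := by linarith
    have hv1 : v1 ≠ 0 := by rintro rfl; norm_num at h'
    have hv1p : 0 < |v1| := abs_pos.2 hv1
    have e : |t - -(v0 / v1)| * |v1| = |v| := by
      rw [← abs_mul, hv]; congr 1; field_simp; ring
    rw [Metric.mem_ball, Real.dist_eq]
    by_contra hc
    push Not at hc
    have h1 : 2 * ε * |v1| ≤ |v| := by rw [← e]; exact mul_le_mul_of_nonneg_right hc hv1p.le
    have h2 : ε ≤ |u * v| := by
      rw [abs_mul]
      rw [abs_mul] at h'
      have hv0 : 0 ≤ |u| := abs_nonneg u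
      nlinarith
    linarith

/-- The bad set of a triple, along one coordinate. -/
theorem slice {A : Matrix X X ℝ} (V : X → ℝ) (a z b : X) {ε : ℝ} (hε : 0 < ε) :
    ∃ r1 r2 : ℝ, {s : ℝ | (A + Matrix.diagonal (Function.update V z s)).det ≠ 0 ∧
        |GR A (Function.update V z s) a b| <
          ε * |GR A (Function.update V z s) a z * GR A (Function.update V z s) z b|} ⊆
      Metric.ball r1 (2 * ε) ∪ Metric.ball r2 (2 * ε) := by
  by_cases hex : ∃ s0 : ℝ, (A + Matrix.diagonal (Function.update V z s0)).det ≠ 0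
  swap
  · push Not at hex
    refine ⟨0, 0, ?_⟩
    rintro s ⟨h1, -⟩
    exact absurd (hex s) h1
  obtain ⟨s0, hs0⟩ := hex
  set V0 := Function.update V z s0 with hV0
  have hup : ∀ s, Function.update V z s = Function.update V0 z (V0 z + (s - s0)) := by
    intro s
    rw [hV0, Function.update_idem, Function.update_self]
    congr 1; ring
  set g := GR A V0 z z with hg
  set k0 := GR A V0 a b with hk0
  set c0 := GR A V0 a z * GR A V0 z b with hc0
  by_cases hc : c0 = 0
  · refine ⟨0, 0, ?_⟩
    rintro s ⟨h1, h2⟩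
    exfalso
    by_cases hu : 1 + (s - s0) * g = 0
    · have hdet' := det_upd hs0 z (s - s0)
      rw [← hup s, ← hg, hu, mul_zero] at hdet'
      exact h1 hdet'
    · rw [hup s, GR_update hs0 z _ hu, GR_update hs0 z _ hu, GR_update hs0 z _ hu] at h2
      have e : (GR A V0 a z - (s - s0) / (1 + (s - s0) * GR A V0 z z) *
          (GR A V0 a z * GR A V0 z z)) * (GR A V0 z b - (s - s0) / (1 + (s - s0) * GR A V0 z z) *
          (GR A V0 z z * GR A V0 z b)) = 0 := by
        have : (GR A V0 a z - (s - s0) / (1 + (s - s0) * GR A V0 z z) *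
          (GR A V0 a z * GR A V0 z z)) * (GR A V0 z b - (s - s0) / (1 + (s - s0) * GR A V0 z z) *
          (GR A V0 z z * GR A V0 z b)) = c0 * (1 - (s - s0) / (1 + (s - s0) * GR A V0 z z) *
            GR A V0 z z) ^ 2 := by rw [hc0]; ring
        rw [this, hc, zero_mul]
      rw [e, abs_zero, mul_zero] at h2
      exact absurd h2 (not_lt.2 (abs_nonneg _))
  · -- main case
    have hW : g * (k0 / c0 - s0 * (g * (k0 / c0) - 1)) -
        (g * (k0 / c0) - 1) * (1 - s0 * g) = 1 := by ring
    obtain ⟨r1, r2, hr⟩ := wronskian hε hW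
    refine ⟨r1, r2, ?_⟩
    rintro s ⟨h1, h2⟩
    apply hr
    simp only [mem_setOf_eq]
    have hu' : 1 - s0 * g + s * g = 1 + (s - s0) * g := by ring
    have hv' : k0 / c0 - s0 * (g * (k0 / c0) - 1) + s * (g * (k0 / c0) - 1) =
        k0 / c0 + (s - s0) * (g * (k0 / c0) - 1) := by ring
    rw [hu', hv']
    by_cases hu : 1 + (s - s0) * g = 0
    · rw [hu, zero_mul, abs_zero]; exact hε
    · rw [hup s, GR_update hs0 z _ hu, GR_update hs0 z _ hu, GR_update hs0 z _ hu] at h2
      rw [← hg, ← hk0] at h2
      have hcp : 0 < |c0| := abs_pos.2 hc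
      have hup2 : 0 < (1 + (s - s0) * g) ^ 2 := by positivity
      have e1 : k0 - (s - s0) / (1 + (s - s0) * g) * (GR A V0 a z * GR A V0 z b) =
          ((1 + (s - s0) * g) * (k0 / c0 + (s - s0) * (g * (k0 / c0) - 1))) * c0 /
            (1 + (s - s0) * g) ^ 2 := by
        rw [← hc0]; field_simp; ring
      have e2 : (GR A V0 a z - (s - s0) / (1 + (s - s0) * g) * (GR A V0 a z * g)) *
          (GR A V0 z b - (s - s0) / (1 + (s - s0) * g) * (g * GR A V0 z b)) =
          c0 / (1 + (s - s0) * g) ^ 2 := by
        rw [hc0]; field_simp; ring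
      rw [e1, e2, abs_div, abs_div, abs_mul _ c0, abs_of_pos hup2] at h2
      have e5 : ε * (|c0| / (1 + (s - s0) * g) ^ 2) = ε * |c0| / (1 + (s - s0) * g) ^ 2 := by ring
      rw [e5, div_lt_div_iff_of_pos_right hup2] at h2
      exact lt_of_mul_lt_mul_right h2 hcp.le

/-! ### uniform laws -/

/-- the uniform law on `[c - w, c + w]` -/
noncomputable def unif (w c : ℝ) : Measure ℝ :=
  (ENNReal.ofReal (2 * w))⁻¹ • volume.restrict (Icc (c - w) (c + w))

theorem unif_prob {w : ℝ} (hw : 0 < w) (c : ℝ) : IsProbabilityMeasure (unif w c) := by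
  constructor
  unfold unif
  rw [Measure.smul_apply, Measure.restrict_apply_univ, Real.volume_Icc, smul_eq_mul]
  rw [show c + w - (c - w) = 2 * w by ring]
  exact ENNReal.inv_mul_cancel (by simpa using hw) ENNReal.ofReal_ne_top

theorem unif_le {w : ℝ} (hw : 0 < w) (c : ℝ) (S : Set ℝ) :
    unif w c S ≤ (ENNReal.ofReal (2 * w))⁻¹ * volume S := by
  unfold unif
  rw [Measure.smul_apply, smul_eq_mul]
  exact mul_le_mul_right (Measure.restrict_apply_le _ _) _

theorem unif_balls {w : ℝ} (hw : 0 < w) (c r1 r2 ε : ℝ) (hε : 0 < ε) {S : Set ℝ}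
    (hS : S ⊆ Metric.ball r1 (2 * ε) ∪ Metric.ball r2 (2 * ε)) :
    unif w c S ≤ ENNReal.ofReal (4 * ε / w) := by
  refine (unif_le hw c S).trans ?_
  have h1 : volume S ≤ ENNReal.ofReal (8 * ε) := by
    calc volume S ≤ volume (Metric.ball r1 (2 * ε) ∪ Metric.ball r2 (2 * ε)) := measure_mono hS
      _ ≤ volume (Metric.ball r1 (2 * ε)) + volume (Metric.ball r2 (2 * ε)) := measure_union_le _ _
      _ = ENNReal.ofReal (8 * ε) := by
        rw [Real.volume_ball, Real.volume_ball, ← ENNReal.ofReal_add (by positivity) (by positivity)]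
        congr 1; ring
  calc (ENNReal.ofReal (2 * w))⁻¹ * volume S
      ≤ (ENNReal.ofReal (2 * w))⁻¹ * ENNReal.ofReal (8 * ε) := mul_le_mul_right h1 _
    _ = ENNReal.ofReal (4 * ε / w) := by
        rw [← ENNReal.ofReal_inv_of_pos (by positivity), ← ENNReal.ofReal_mul (by positivity)]
        congr 1; field_simp; ring

theorem unif_supp (w c : ℝ) : ∀ᵐ t ∂(unif w c), |t - c| ≤ w := by
  have h : ∀ᵐ t ∂(volume.restrict (Icc (c - w) (c + w))), |t - c| ≤ w := by
    filter_upwards [ae_restrict_mem measurableSet_Icc] with t ht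
    rw [abs_le]; constructor <;> linarith [ht.1, ht.2]
  unfold unif
  exact Measure.ae_smul_measure h _

theorem unif_singleton (w c x : ℝ) : unif w c {x} = 0 := by
  unfold unif
  rw [Measure.smul_apply, measure_singleton, smul_zero]

/-- one coordinate estimate implies the estimate under the product law -/
theorem pi_le {μ : X → Measure ℝ} [∀ i, IsProbabilityMeasure (μ i)] (z : X) {S : Set (X → ℝ)}
    (hS : MeasurableSet S) {c : ℝ≥0∞} (h : ∀ V : X → ℝ, μ z {t | Function.update V z t ∈ S} ≤ c) :
    Measure.pi μ S ≤ c := by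
  have e1 : Measure.pi μ S = ∫⁻ V, S.indicator 1 V ∂(Measure.pi μ) := by
    rw [lintegral_indicator_one hS]
  have e2 : ∫⁻ V, (fun _ => c) V ∂(Measure.pi μ) = c := by simp
  rw [e1, ← e2]
  refine lintegral_le_of_lmarginal_le {z} (measurable_one.indicator hS) measurable_const ?_
  intro V
  rw [lmarginal_singleton, lmarginal_singleton]
  beta_reduce
  have e3 : ∫⁻ t, S.indicator (1 : (X → ℝ) → ℝ≥0∞) (Function.update V z t) ∂(μ z) =
      μ z {t | Function.update V z t ∈ S} := by
    have : (fun t => S.indicator (1 : (X → ℝ) → ℝ≥0∞) (Function.update V z t)) =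
        Set.indicator {t | Function.update V z t ∈ S} 1 := by
      funext t; simp [Set.indicator]
    rw [this, lintegral_indicator_one]
    exact (measurable_update V) hS
  rw [e3]
  simpa using h V

/-! ### invertibility almost surely -/

/-- rows in `S` replaced by unit rows -/
noncomputable def BS (A : Matrix X X ℝ) (S : Finset X) (V : X → ℝ) : Matrix X X ℝ :=
  fun i => if i ∈ S then Pi.single i 1 else (A + Matrix.diagonal V) i

theorem BS_insert (A : Matrix X X ℝ) {S : Finset X} {z : X} (hz : z ∉ S) (V : X → ℝ) :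
    BS A (insert z S) V = (BS A S V).updateRow z (Pi.single z 1) := by
  funext i
  by_cases hi : i = z
  · subst hi; simp [BS]
  · simp [BS, hi, Matrix.updateRow_ne hi]

theorem BS_update (A : Matrix X X ℝ) {S : Finset X} {z : X} (hz : z ∉ S) (V : X → ℝ) (t : ℝ) :
    (BS A S (Function.update V z t)).det =
      (BS A S V).det + (t - V z) * (BS A (insert z S) V).det := by
  have e1 : BS A S (Function.update V z t) =
      (BS A S V).updateRow z (BS A S V z + (t - V z) • Pi.single z 1) := by
    funext i
    by_cases hi : i = z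
    · subst hi
      rw [Matrix.updateRow_self]
      funext j
      simp only [BS, hz, if_false, Matrix.add_apply, Matrix.diagonal_apply, Pi.add_apply,
        Pi.smul_apply, smul_eq_mul, Pi.single_apply]
      by_cases hj : i = j
      · subst hj; simp
      · have hj' : ¬ j = i := fun h => hj h.symm
        simp [hj, hj']
    · rw [Matrix.updateRow_ne hi]
      by_cases hS : i ∈ S
      · simp [BS, hS]
      · funext j
        simp only [BS, hS, if_false, Matrix.add_apply, Matrix.diagonal_apply]
        rw [Function.update_of_ne hi]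
  rw [e1, Matrix.det_updateRow_add, Matrix.updateRow_eq_self, Matrix.det_updateRow_smul,
    BS_insert A hz]

theorem BS_insert_update (A : Matrix X X ℝ) {S : Finset X} {z : X} (hz : z ∈ S) (V : X → ℝ) (t : ℝ) :
    BS A S (Function.update V z t) = BS A S V := by
  funext i
  by_cases hi : i ∈ S
  · simp [BS, hi]
  · have : i ≠ z := fun h => hi (h ▸ hz)
    funext j
    simp only [BS, hi, if_false, Matrix.add_apply, Matrix.diagonal_apply]
    rw [Function.update_of_ne this]

theorem continuous_BS (A : Matrix X X ℝ) (S : Finset X) : Continuous fun V => (BS A S V).det := by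
  refine Continuous.matrix_det ?_
  refine continuous_pi fun i => ?_
  by_cases hi : i ∈ S
  · simp only [BS, hi, if_true]; exact continuous_const
  · simp only [BS, hi, if_false]
    refine continuous_pi fun j => ?_
    simp only [Matrix.add_apply, Matrix.diagonal_apply]
    by_cases hj : i = j
    · simp only [hj, if_true]; exact continuous_const.add (continuous_apply j)
    · simp only [hj, if_false]; exact continuous_const.add continuous_const

theorem BS_null (A : Matrix X X ℝ) (V0 : X → ℝ) {w : ℝ} (hw : 0 < w) (S : Finset X) :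
    Measure.pi (fun i => unif w (V0 i)) {V | (BS A S V).det = 0} = 0 := by
  haveI : ∀ i, IsProbabilityMeasure (unif w (V0 i)) := fun i => unif_prob hw _
  have hmeas : ∀ S : Finset X, MeasurableSet {V | (BS A S V).det = 0} := fun S =>
    (isClosed_eq (continuous_BS A S) continuous_const).measurableSet
  -- downward induction
  obtain ⟨n, hn⟩ : ∃ n, (Finset.univ \ S).card = n := ⟨_, rfl⟩
  induction n generalizing S with
  | zero =>
    have hS : S = Finset.univ := by
      rw [Finset.card_eq_zero, Finset.sdiff_eq_empty_iff_subset] at hn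
      exact Finset.eq_univ_of_forall fun x => hn (Finset.mem_univ x)
    subst hS
    have : {V : X → ℝ | (BS A Finset.univ V).det = 0} = ∅ := by
      ext V
      simp only [mem_setOf_eq, mem_empty_iff_false, iff_false]
      have : BS A Finset.univ V = 1 := by
        funext i j
        simp [BS, Matrix.one_apply, Pi.single_apply, eq_comm]
      rw [this, Matrix.det_one]
      exact one_ne_zero
    rw [this, measure_empty]
  | succ n ih =>
    obtain ⟨z, hz⟩ : (Finset.univ \ S).Nonempty := by
      rw [← Finset.card_pos, hn]; omega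
    have hzS : z ∉ S := by simpa using hz
    have hI := ih (insert z S) (by
      have : Finset.univ \ insert z S = (Finset.univ \ S).erase z := by
        ext x; simp only [Finset.mem_sdiff, Finset.mem_univ, true_and, Finset.mem_insert, not_or,
          Finset.mem_erase]
      rw [this, Finset.card_erase_of_mem hz, hn]; rfl)
    -- intersect with the good set of `insert z S`
    have hsub : {V | (BS A S V).det = 0} ⊆
        {V | (BS A (insert z S) V).det = 0} ∪
          {V | (BS A S V).det = 0 ∧ (BS A (insert z S) V).det ≠ 0} := by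
      intro V hV
      by_cases h : (BS A (insert z S) V).det = 0
      · left; exact h
      · right; exact ⟨hV, h⟩
    refine measure_mono_null hsub (measure_union_null hI ?_)
    refine le_antisymm ?_ bot_le
    refine pi_le z ((hmeas S).inter (hmeas (insert z S)).compl) ?_
    intro V
    by_cases h : (BS A (insert z S) V).det = 0
    · have : {t | Function.update V z t ∈ {V | (BS A S V).det = 0} ∩
          {V | (BS A (insert z S) V).det = 0}ᶜ} = ∅ := by
        ext t
        simp only [mem_setOf_eq, mem_inter_iff, mem_compl_iff, mem_empty_iff_false, iff_false,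
          not_and, not_not]
        intro _
        rw [BS_insert_update A (Finset.mem_insert_self z S)]
        exact h
      rw [this, measure_empty]
    · have : {t | Function.update V z t ∈ {V | (BS A S V).det = 0} ∩
          {V | (BS A (insert z S) V).det = 0}ᶜ} ⊆
          {V z - (BS A S V).det / (BS A (insert z S) V).det} := by
        intro t ht
        have h1 : (BS A S (Function.update V z t)).det = 0 := ht.1
        rw [BS_update A hzS] at h1
        rw [mem_singleton_iff]
        field_simp
        linarith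
      refine (measure_mono this).trans ?_
      rw [unif_singleton]

theorem det_null (A : Matrix X X ℝ) (V0 : X → ℝ) {w : ℝ} (hw : 0 < w) :
    Measure.pi (fun i => unif w (V0 i)) {V | (A + Matrix.diagonal V).det = 0} = 0 := by
  have h := BS_null A V0 hw ∅
  have e : ∀ V, BS A ∅ V = A + Matrix.diagonal V := by
    intro V; funext i; simp [BS]
  simpa only [e] using h

/-! ### the 3G inequality -/

theorem measurable_entry (A : Matrix X X ℝ) (a b : X) : Measurable fun V => GR A V a b := by
  unfold GR
  simp only [Matrix.inv_def, Matrix.smul_apply, smul_eq_mul, Ring.inverse_eq_inv']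
  refine Measurable.mul ?_ ?_
  · refine Measurable.inv ?_
    refine Continuous.measurable (Continuous.matrix_det ?_)
    exact continuous_const.add (Continuous.matrix_diagonal continuous_id)
  · refine Continuous.measurable ?_
    have : Continuous fun V : X → ℝ => (A + Matrix.diagonal V).adjugate :=
      Continuous.matrix_adjugate (continuous_const.add (Continuous.matrix_diagonal continuous_id))
    exact this.matrix_elem a b

theorem bad_le (A : Matrix X X ℝ) (V0 : X → ℝ) {w ε : ℝ} (hw : 0 < w) (hε : 0 < ε) (a z b : X) :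
    Measure.pi (fun i => unif w (V0 i)) {V | (A + Matrix.diagonal V).det ≠ 0 ∧
        |GR A V a b| < ε * |GR A V a z * GR A V z b|} ≤ ENNReal.ofReal (4 * ε / w) := by
  haveI : ∀ i, IsProbabilityMeasure (unif w (V0 i)) := fun i => unif_prob hw _
  refine pi_le z ?_ ?_
  · refine MeasurableSet.inter ?_ ?_
    · refine (isClosed_eq ?_ continuous_const).measurableSet.compl
      exact Continuous.matrix_det (continuous_const.add (Continuous.matrix_diagonal continuous_id))
    · exact measurableSet_lt (measurable_entry A a b).abs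
        (((measurable_entry A a z).mul (measurable_entry A z b)).abs.const_mul ε)
  · intro V
    obtain ⟨r1, r2, h⟩ := slice (A := A) V a z b hε
    exact unif_balls hw _ r1 r2 ε hε h

/-- **3G inequality**: near every potential there is one with the 3G inequality. -/
theorem exists_3G [Nonempty X] (A : Matrix X X ℝ) (V0 : X → ℝ) {w : ℝ} (hw : 0 < w) :
    ∃ V : X → ℝ, (∀ x, |V x - V0 x| ≤ w) ∧ (A + Matrix.diagonal V).det ≠ 0 ∧
      ∀ a z b, |GR A V a z * GR A V z b| ≤
        (8 * (Fintype.card X : ℝ) ^ 3 / w) * |GR A V a b| := by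
  haveI : ∀ i, IsProbabilityMeasure (unif w (V0 i)) := fun i => unif_prob hw _
  set N : ℝ := (Fintype.card X : ℝ) with hN
  have hN0 : 0 < N := by rw [hN]; exact_mod_cast Fintype.card_pos
  set ε : ℝ := w / (8 * N ^ 3) with hε
  have hεp : 0 < ε := by positivity
  set P := Measure.pi (fun i => unif w (V0 i)) with hP
  set B : X × X × X → Set (X → ℝ) := fun q => {V | (A + Matrix.diagonal V).det ≠ 0 ∧
        |GR A V q.1 q.2.2| < ε * |GR A V q.1 q.2.1 * GR A V q.2.1 q.2.2|} with hB
  set D : Set (X → ℝ) := {V | (A + Matrix.diagonal V).det = 0} with hD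
  have h1 : P (⋃ q, B q) ≤ ENNReal.ofReal (1 / 2) := by
    calc P (⋃ q, B q) ≤ ∑ q, P (B q) := measure_iUnion_fintype_le _ _
      _ ≤ ∑ q : X × X × X, ENNReal.ofReal (4 * ε / w) :=
        Finset.sum_le_sum fun q _ => bad_le A V0 hw hεp q.1 q.2.1 q.2.2
      _ = ENNReal.ofReal (1 / 2) := by
        rw [Finset.sum_const, Finset.card_univ, nsmul_eq_mul]
        rw [show ((Fintype.card (X × X × X) : ℕ) : ℝ≥0∞) = ENNReal.ofReal (N ^ 3) by
          rw [Fintype.card_prod, Fintype.card_prod, hN]
          rw [ENNReal.ofReal_pow (by positivity), ENNReal.ofReal_natCast]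
          push_cast; ring]
        rw [← ENNReal.ofReal_mul (by positivity)]
        congr 1
        rw [hε]; field_simp; ring
  have h2 : ∀ᵐ V ∂P, ∀ i, |V i - V0 i| ≤ w := by
    rw [ae_all_iff]
    intro i
    exact (Measure.tendsto_eval_ae_ae (μ := fun i => unif w (V0 i)) (i := i)).eventually
      (unif_supp w (V0 i))
  have h3 : P D = 0 := det_null A V0 hw
  have h4 : ∀ᵐ V ∂P, V ∉ D := by
    rw [ae_iff]; simpa using h3
  have h5 : P (⋃ q, B q)ᶜ ≠ 0 := by
    intro h0
    have : P Set.univ ≤ ENNReal.ofReal (1 / 2) := by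
      calc P Set.univ ≤ P (⋃ q, B q) + P (⋃ q, B q)ᶜ := by
            rw [← Set.union_compl_self (⋃ q, B q)]; exact measure_union_le _ _
        _ ≤ ENNReal.ofReal (1 / 2) := by rw [h0, add_zero]; exact h1
    rw [measure_univ] at this
    have h6 : ENNReal.ofReal (1 / 2) < 1 := by
      rw [← ENNReal.ofReal_one]
      exact (ENNReal.ofReal_lt_ofReal_iff one_pos).2 (by norm_num)
    exact absurd this (not_le.2 h6)
  have h7 : ∃ V, V ∈ (⋃ q, B q)ᶜ ∧ (∀ i, |V i - V0 i| ≤ w) ∧ V ∉ D := by
    by_contra hcon
    push Not at hcon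
    apply h5
    have hae : ∀ᵐ V ∂P, V ∉ (⋃ q, B q)ᶜ := by
      filter_upwards [h2, h4] with V hV1 hV2 hV3
      exact hV2 (hcon V hV3 hV1)
    rw [ae_iff] at hae
    have e : {V | ¬ V ∉ (⋃ q, B q)ᶜ} = (⋃ q, B q)ᶜ := by ext V; simp
    rw [e] at hae
    exact hae
  obtain ⟨V, hV1, hV2, hV3⟩ := h7
  refine ⟨V, hV2, hV3, ?_⟩
  intro a z b
  have : V ∉ B (a, z, b) := fun h => hV1 (mem_iUnion.2 ⟨_, h⟩)
  simp only [hB, mem_setOf_eq, not_and, not_lt] at this
  have h8 := this hV3
  have h9 : (8 * N ^ 3 / w) = 1 / ε := by rw [hε]; field_simp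
  rw [h9, one_div, ← div_eq_inv_mul, le_div_iff₀ hεp]
  linarith

/-! ### stable windows -/

theorem entry_bound {A : Matrix X X ℝ} {V : X → ℝ} {Q : ℝ} (hA : A.IsSymm)
    (h0 : (A + Matrix.diagonal V).det ≠ 0)
    (h3 : ∀ a z b, |GR A V a z * GR A V z b| ≤ Q * |GR A V a b|) (hQ : 0 ≤ Q) (a b : X) :
    |GR A V a b| ≤ Q := by
  have hsym : (GR A V).IsSymm := by
    unfold GR
    rw [Matrix.IsSymm, Matrix.transpose_nonsing_inv, Matrix.transpose_add,
      Matrix.diagonal_transpose, hA]
  have haa : |GR A V a a| ≤ Q := by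
    have h := h3 a a a
    rw [abs_mul] at h
    by_cases hz : |GR A V a a| = 0
    · rw [hz]; exact hQ
    · exact le_of_mul_le_mul_right h (lt_of_le_of_ne (abs_nonneg _) (Ne.symm hz))
  have h := h3 a b a
  have e : GR A V b a = GR A V a b := hsym.apply a b
  rw [e, abs_mul] at h
  have h2 : |GR A V a b| * |GR A V a b| ≤ Q * Q :=
    h.trans (mul_le_mul_of_nonneg_left haa hQ)
  exact (mul_self_le_mul_self_iff (abs_nonneg _) hQ).2 h2

theorem stable_det {A : Matrix X X ℝ} {V V' : X → ℝ} {Q w' : ℝ} (hA : A.IsSymm)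
    (h0 : (A + Matrix.diagonal V).det ≠ 0)
    (h3 : ∀ a z b, |GR A V a z * GR A V z b| ≤ Q * |GR A V a b|) (hQ : 0 ≤ Q)
    (hV : ∀ x, |V' x - V x| ≤ w') (hw : w' * Fintype.card X * Q ≤ 1 / 2) :
    (A + Matrix.diagonal V').det ≠ 0 := by
  intro hdet
  obtain ⟨y, hy0, hy⟩ := Matrix.exists_vecMul_eq_zero_iff.2 hdet
  have hM : (A + Matrix.diagonal V) * GR A V = 1 := by
    unfold GR
    exact Matrix.mul_nonsing_inv _ (isUnit_iff_ne_zero.2 h0)
  have hsplit : A + Matrix.diagonal V' = (A + Matrix.diagonal V) + Matrix.diagonal (V' - V) := by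
    ext i j
    simp only [Matrix.add_apply, Matrix.diagonal_apply, Pi.sub_apply]
    by_cases h : i = j
    · simp [h]
    · simp [h]
  have hyb : ∀ b, y b = -∑ z, y z * (V' z - V z) * GR A V z b := by
    have h1 : y ᵥ* (A + Matrix.diagonal V) = -(y ᵥ* Matrix.diagonal (V' - V)) := by
      rw [hsplit, Matrix.vecMul_add] at hy
      exact eq_neg_of_add_eq_zero_left hy
    have h2 : y = -(y ᵥ* Matrix.diagonal (V' - V)) ᵥ* GR A V := by
      rw [← h1, Matrix.vecMul_vecMul, hM, Matrix.vecMul_one]
    intro b
    conv_lhs => rw [h2]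
    rw [Matrix.neg_vecMul]
    simp only [Pi.neg_apply, Matrix.vecMul, dotProduct, Matrix.diagonal_apply]
    congr 1
    refine Finset.sum_congr rfl fun z _ => ?_
    simp
  have hb := entry_bound hA h0 h3 hQ
  have hle : ∑ b, |y b| ≤ 1 / 2 * ∑ z, |y z| := by
    calc ∑ b, |y b| ≤ ∑ b : X, ∑ z, |y z| * w' * Q := by
          refine Finset.sum_le_sum fun b _ => ?_
          rw [hyb b, abs_neg]
          refine (Finset.abs_sum_le_sum_abs _ _).trans (Finset.sum_le_sum fun z _ => ?_)
          rw [abs_mul, abs_mul]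
          exact mul_le_mul (mul_le_mul_of_nonneg_left (hV z) (abs_nonneg _)) (hb z b)
            (abs_nonneg _) (mul_nonneg (abs_nonneg _) ((abs_nonneg _).trans (hV z)))
      _ = (w' * Fintype.card X * Q) * ∑ z, |y z| := by
          rw [Finset.sum_const, Finset.card_univ, nsmul_eq_mul, ← Finset.sum_mul, ← Finset.sum_mul]
          ring
      _ ≤ 1 / 2 * ∑ z, |y z| :=
          mul_le_mul_of_nonneg_right hw (Finset.sum_nonneg fun _ _ => abs_nonneg _)
  have hsum0 : ∑ z, |y z| = 0 := by
    have : 0 ≤ ∑ z, |y z| := Finset.sum_nonneg fun _ _ => abs_nonneg _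
    linarith
  apply hy0
  funext z
  have := (Finset.sum_eq_zero_iff_of_nonneg (fun z _ => abs_nonneg (y z))).1 hsum0 z
    (Finset.mem_univ z)
  simpa using this

/-- resolvent identity -/
theorem resolvent {A : Matrix X X ℝ} {V V' : X → ℝ}
    (h0 : (A + Matrix.diagonal V).det ≠ 0) (h0' : (A + Matrix.diagonal V').det ≠ 0) (a b : X) :
    GR A V' a b = GR A V a b - ∑ z, GR A V' a z * (V' z - V z) * GR A V z b := by
  have hM : (A + Matrix.diagonal V) * GR A V = 1 := by
    unfold GR
    exact Matrix.mul_nonsing_inv _ (isUnit_iff_ne_zero.2 h0)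
  have hM' : GR A V' * (A + Matrix.diagonal V') = 1 := by
    unfold GR
    exact Matrix.nonsing_inv_mul _ (isUnit_iff_ne_zero.2 h0')
  have hsplit : A + Matrix.diagonal V' = (A + Matrix.diagonal V) + Matrix.diagonal (V' - V) := by
    ext i j
    simp only [Matrix.add_apply, Matrix.diagonal_apply, Pi.sub_apply]
    by_cases h : i = j
    · simp [h]
    · simp [h]
  have e : GR A V' = GR A V - GR A V' * Matrix.diagonal (V' - V) * GR A V := by
    have h1 : GR A V' * (A + Matrix.diagonal V') * GR A V = GR A V := by rw [hM', Matrix.one_mul]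
    rw [hsplit, mul_add, add_mul, Matrix.mul_assoc (GR A V') _ (GR A V), hM, Matrix.mul_one] at h1
    exact eq_sub_of_add_eq h1
  conv_lhs => rw [e]
  rw [Matrix.sub_apply, Matrix.mul_apply]
  congr 1
  refine Finset.sum_congr rfl fun z _ => ?_
  rw [Matrix.mul_diagonal, Pi.sub_apply]

/-- **stable windows**: under 3G every entry is stable in the relative sense. -/
theorem stable {A : Matrix X X ℝ} {V V' : X → ℝ} {Q w' : ℝ} (hA : A.IsSymm)
    (h0 : (A + Matrix.diagonal V).det ≠ 0)
    (h3 : ∀ a z b, |GR A V a z * GR A V z b| ≤ Q * |GR A V a b|) (hQ : 0 ≤ Q)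
    (hV : ∀ x, |V' x - V x| ≤ w') (hw : w' * Fintype.card X * Q ≤ 1 / 2) :
    (A + Matrix.diagonal V').det ≠ 0 ∧
      ∀ a b, |GR A V' a b - GR A V a b| ≤ 2 * (w' * Fintype.card X * Q) * |GR A V a b| := by
  have h0' := stable_det hA h0 h3 hQ hV hw
  refine ⟨h0', fun a b => ?_⟩
  set θ := w' * (Fintype.card X : ℝ) * Q with hθ
  have hw0 : 0 ≤ w' := by
    by_cases hX : Nonempty X
    · obtain ⟨x⟩ := hX; exact (abs_nonneg _).trans (hV x)
    · exact absurd ⟨a⟩ hX
  have hθ0 : 0 ≤ θ := by positivity
  set G := GR A V with hG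
  set G' := GR A V' with hG'
  let Y : ℕ → X → ℝ := fun k => Nat.rec (fun b => G a b)
    (fun _ y b => G a b - ∑ z, y z * (V' z - V z) * G z b) k
  have Y0 : ∀ b, Y 0 b = G a b := fun b => rfl
  have YS : ∀ k b, Y (k + 1) b = G a b - ∑ z, Y k z * (V' z - V z) * G z b := fun k b => rfl
  have c1 : ∀ k b, |Y k b - G a b| ≤ 2 * θ * |G a b| := by
    intro k
    induction k with
    | zero => intro b; rw [Y0, sub_self, abs_zero]; positivity
    | succ k ih =>
      intro b
      rw [YS, show G a b - ∑ z, Y k z * (V' z - V z) * G z b - G a b =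
        -∑ z, Y k z * (V' z - V z) * G z b by ring, abs_neg]
      calc |∑ z, Y k z * (V' z - V z) * G z b| ≤ ∑ z, |Y k z * (V' z - V z) * G z b| :=
            Finset.abs_sum_le_sum_abs _ _
        _ ≤ ∑ z : X, (1 + 2 * θ) * w' * (Q * |G a b|) := by
            refine Finset.sum_le_sum fun z _ => ?_
            have e1 : |Y k z| ≤ (1 + 2 * θ) * |G a z| := by
              have := ih z
              have h4 := abs_sub_abs_le_abs_sub (Y k z) (G a z)
              linarith
            have e2 := h3 a z b
            rw [abs_mul] at e2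
            calc |Y k z * (V' z - V z) * G z b| = |Y k z| * |V' z - V z| * |G z b| := by
                  rw [abs_mul, abs_mul]
              _ ≤ ((1 + 2 * θ) * |G a z|) * w' * |G z b| :=
                  mul_le_mul_of_nonneg_right (mul_le_mul e1 (hV z) (abs_nonneg _)
                    (by positivity)) (abs_nonneg _)
              _ = (1 + 2 * θ) * w' * (|G a z| * |G z b|) := by ring
              _ ≤ (1 + 2 * θ) * w' * (Q * |G a b|) :=
                  mul_le_mul_of_nonneg_left e2 (by positivity)
        _ = (1 + 2 * θ) * θ * |G a b| := by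
            rw [Finset.sum_const, Finset.card_univ, nsmul_eq_mul, hθ]; ring
        _ ≤ 2 * θ * |G a b| := by
            refine mul_le_mul_of_nonneg_right ?_ (abs_nonneg _)
            nlinarith
  have hb := entry_bound hA h0 h3 hQ
  have c2 : ∀ k, ∑ b, |G' a b - Y k b| ≤ (1 / 2) ^ k * ∑ b, |G' a b - Y 0 b| := by
    intro k
    induction k with
    | zero => simp
    | succ k ih =>
      have e1 : ∀ b, G' a b - Y (k + 1) b = -∑ z, (G' a z - Y k z) * (V' z - V z) * G z b := by
        intro b
        rw [YS, hG', resolvent h0 h0' a b, ← hG']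
        simp only [sub_mul, Finset.sum_sub_distrib]
        ring
      calc ∑ b, |G' a b - Y (k + 1) b| ≤ ∑ b : X, ∑ z, |G' a z - Y k z| * w' * Q := by
            refine Finset.sum_le_sum fun b _ => ?_
            rw [e1, abs_neg]
            refine (Finset.abs_sum_le_sum_abs _ _).trans (Finset.sum_le_sum fun z _ => ?_)
            rw [abs_mul, abs_mul]
            exact mul_le_mul (mul_le_mul_of_nonneg_left (hV z) (abs_nonneg _)) (hb z b)
              (abs_nonneg _) (mul_nonneg (abs_nonneg _) hw0)
        _ = θ * ∑ z, |G' a z - Y k z| := by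
            rw [Finset.sum_const, Finset.card_univ, nsmul_eq_mul, ← Finset.sum_mul,
              ← Finset.sum_mul, hθ]
            ring
        _ ≤ 1 / 2 * ∑ z, |G' a z - Y k z| :=
            mul_le_mul_of_nonneg_right hw (Finset.sum_nonneg fun _ _ => abs_nonneg _)
        _ ≤ 1 / 2 * ((1 / 2) ^ k * ∑ b, |G' a b - Y 0 b|) :=
            mul_le_mul_of_nonneg_left ih (by norm_num)
        _ = (1 / 2) ^ (k + 1) * ∑ b, |G' a b - Y 0 b| := by ring
  have c3 : ∀ k, |G' a b - G a b| ≤ (1 / 2) ^ k * (∑ b, |G' a b - Y 0 b|) + 2 * θ * |G a b| := by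
    intro k
    have h4 : |G' a b - Y k b| ≤ ∑ b, |G' a b - Y k b| :=
      Finset.single_le_sum (f := fun b => |G' a b - Y k b|) (fun _ _ => abs_nonneg _)
        (Finset.mem_univ b)
    have h5 := abs_sub_le (G' a b) (Y k b) (G a b)
    linarith [c1 k b, c2 k]
  have h6 : Filter.Tendsto (fun k : ℕ => (1 / 2 : ℝ) ^ k * (∑ b, |G' a b - Y 0 b|) +
      2 * θ * |G a b|) Filter.atTop (nhds (0 * (∑ b, |G' a b - Y 0 b|) + 2 * θ * |G a b|)) :=
    ((tendsto_pow_atTop_nhds_zero_of_lt_one (by norm_num) (by norm_num)).mul_const _).add_const _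
  rw [zero_mul, zero_add] at h6
  exact ge_of_tendsto' h6 c3

end P365T1.H417
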