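import Vale.Agent.P365.H417.CellSh
import Vale.Agent.P365.ISL.Row77
import Vale.Agent.P365.Torus.Base
import Vale.Agent.P365.T1.Defs

/-!
# P365-T1, ISL: the box of a cell on the torus

`phiC c a = c + a` embeds the box `[-r, r]²` in the torus; ports; local coordinates in the block.
-/

set_option linter.all false

namespace P365T1.H417

open P365L P365O P365T1 P365T1.Link Matrix Complex Vale.Agent.P365.C937 P365SH
open scoped ComplexConjugate

/-! ### ports of a box in a general graph -/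

section General

variable {ι : Type*} [Fintype ι] [DecidableEq ι] {A : Matrix ι ι ℝ}
variable {r : ℕ} {y : Xr r} {φ : ℤ × ℤ → ι}

/-- ports: sites outside the box with a neighbour in the box -/
noncomputable def PX (A : Matrix ι ι ℝ) (r : ℕ) (φ : ℤ × ℤ → ι) : Finset ι :=
  (Set.toFinite {k | k ∉ φ '' (Xr r) ∧ ∃ a : Xr r, A (φ a) k ≠ 0}).toFinset

theorem mem_PX {k : ι} : k ∈ PX A r φ ↔ k ∉ φ '' (Xr r) ∧ ∃ a : Xr r, A (φ a) k ≠ 0 := by
  rw [PX, Set.Finite.mem_toFinset]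
  rfl

theorem not_mem_LcX_iff {x : ι} :
    x ∉ LcX φ y ↔ ∀ a : Xr r, a ≠ y → φ a ≠ x := by
  rw [mem_LcX]
  push Not
  rfl

/-- the separation structure of the cell -/
theorem BoxEmb.cbox (hB : BoxEmb A r φ) (hy : max (y : ℤ × ℤ).1.natAbs (y : ℤ × ℤ).2.natAbs < r) :
    CBox A (φ y) (LcX φ y) (PX A r φ) where
  yL := not_mem_LcX hB.inj
  yS := fun h => (mem_PX.1 h).1 ⟨y, y.2, rfl⟩
  LS := by
    rw [Finset.disjoint_left]
    intro x hx hxS
    obtain ⟨a, -, rfl⟩ := mem_LcX.1 hx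
    exact (mem_PX.1 hxS).1 ⟨a, a.2, rfl⟩
  ny := by
    intro k hk
    by_cases h : k ∈ φ '' (Xr r)
    · obtain ⟨a, ha, rfl⟩ := h
      by_cases hay : (⟨a, ha⟩ : Xr r) = y
      · have h1 := hB.adj y ⟨a, ha⟩
        rw [hay, AX_diag] at h1
        have h2 : φ a = φ (y : ℤ × ℤ) := by rw [← hay]
        rw [h2]
        exact h1
      · exact absurd rfl (not_mem_LcX_iff.1 hk ⟨a, ha⟩ hay)
    · exact hB.out y hy k h
  nL := by
    intro n hn k hk hky hkS
    obtain ⟨a, -, rfl⟩ := mem_LcX.1 hn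
    by_contra h
    refine hkS (mem_PX.2 ⟨?_, a, h⟩)
    rintro ⟨b, hb, rfl⟩
    by_cases hby : (⟨b, hb⟩ : Xr r) = y
    · exact hky (by rw [← hby])
    · exact not_mem_LcX_iff.1 hk ⟨b, hb⟩ hby rfl

end General

/-! ### the torus -/

section Torus

variable {N : ℕ} [NeZero N]

/-- the box with middle `c` -/
def phiC (c : Tor N) (a : ℤ × ℤ) : Tor N := c + tor N a

theorem tor_add (a b : ℤ × ℤ) : tor N (a + b) = tor N a + tor N b := by
  simp only [tor, Prod.fst_add, Prod.snd_add, Prod.mk_add_mk]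
  push_cast
  rfl

theorem tor_sub (a b : ℤ × ℤ) : tor N (a - b) = tor N a - tor N b := by
  simp only [tor, Prod.fst_sub, Prod.snd_sub, Prod.mk_sub_mk]
  push_cast
  rfl

/-- steps of the lattice -/
theorem mem_nbs_iff {z : Tor N} : z ∈ nbs N ↔
    ∃ d : ℤ × ℤ, d.1.natAbs + d.2.natAbs = 1 ∧ z = tor N d := by
  constructor
  · intro h
    simp only [nbs, Finset.mem_insert, Finset.mem_singleton] at h
    rcases h with rfl | rfl | rfl | rfl
    · exact ⟨(1, 0), by simp, by simp [tor]⟩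
    · exact ⟨(-1, 0), by simp, by simp [tor]⟩
    · exact ⟨(0, 1), by simp, by simp [tor]⟩
    · exact ⟨(0, -1), by simp, by simp [tor]⟩
  · rintro ⟨⟨a, b⟩, h, rfl⟩
    simp only at h
    have : (a = 1 ∧ b = 0) ∨ (a = -1 ∧ b = 0) ∨ (a = 0 ∧ b = 1) ∨ (a = 0 ∧ b = -1) := by omega
    rcases this with ⟨rfl, rfl⟩ | ⟨rfl, rfl⟩ | ⟨rfl, rfl⟩ | ⟨rfl, rfl⟩ <;> simp [nbs, tor]

theorem intCast_inj {a b : ℤ} (h : (a - b).natAbs < N) (he : (a : ZMod N) = (b : ZMod N)) :
    a = b := by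
  have h1 : ((a - b : ℤ) : ZMod N) = 0 := by push_cast; rw [he, sub_self]
  rw [ZMod.intCast_zmod_eq_zero_iff_dvd] at h1
  obtain ⟨k, hk⟩ := h1
  have h2 : (a - b).natAbs = N * k.natAbs := by
    rw [hk, Int.natAbs_mul, Int.natAbs_natCast]
  rcases Nat.eq_zero_or_pos k.natAbs with h3 | h3
  · rw [h3, mul_zero] at h2
    omega
  · have h4 : N * 1 ≤ N * k.natAbs := Nat.mul_le_mul_left _ h3
    omega

theorem tor_inj {a b : ℤ × ℤ} (h1 : (a.1 - b.1).natAbs < N) (h2 : (a.2 - b.2).natAbs < N)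
    (he : tor N a = tor N b) : a = b := by
  simp only [tor, Prod.mk.injEq] at he
  exact Prod.ext (intCast_inj h1 he.1) (intCast_inj h2 he.2)

theorem AT_phiC (c : Tor N) (a b : ℤ × ℤ) :
    AT N (phiC c a) (phiC c b) = if tor N (b - a) ∈ nbs N then 1 else 0 := by
  unfold AT phiC
  rw [add_sub_add_left_eq_sub, tor_sub]

/-- **the box of the cell on the torus** -/
theorem boxEmb_torus {r : ℕ} (hN : 2 * r + 2 ≤ N) (c : Tor N) : BoxEmb (AT N) r (phiC c) where
  symm := AT_symm N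
  deg := by
    intro x
    have h1 : ∀ z, |AT N x z| = AT N x z := fun z => abs_of_nonneg (AT_nonneg x z)
    simp only [h1]
    exact row_sum_le x
  inj := by
    intro a ha b hb h
    have ha' := mem_Xr.1 (show a ∈ Xr r from ha)
    have hb' := mem_Xr.1 (show b ∈ Xr r from hb)
    have h1 : tor N a = tor N b := add_left_cancel (show c + tor N a = c + tor N b from h)
    exact tor_inj (by omega) (by omega) h1
  adj := by
    intro a b
    rw [AT_phiC, AX, adjw]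
    have ha' := mem_Xr.1 a.2
    have hb' := mem_Xr.1 b.2
    by_cases h : ((a : ℤ × ℤ).1 - (b : ℤ × ℤ).1).natAbs +
        ((a : ℤ × ℤ).2 - (b : ℤ × ℤ).2).natAbs = 1
    · rw [if_pos h, if_pos]
      refine mem_nbs_iff.2 ⟨_, ?_, rfl⟩
      simp only [Prod.fst_sub, Prod.snd_sub]
      omega
    · rw [if_neg h, if_neg]
      intro h2
      obtain ⟨d, hd, he⟩ := mem_nbs_iff.1 h2
      have h3 : (b : ℤ × ℤ) - a = d := by
        refine tor_inj ?_ ?_ he
        · simp only [Prod.fst_sub]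
          omega
        · simp only [Prod.snd_sub]
          omega
      rw [← h3] at hd
      simp only [Prod.fst_sub, Prod.snd_sub] at hd
      omega
  out := by
    intro a ha z hz
    by_contra h
    have h1 : z - phiC c a ∈ nbs N := by
      by_contra h2
      exact h (by unfold AT; rw [if_neg h2])
    obtain ⟨d, hd, he⟩ := mem_nbs_iff.1 h1
    refine hz ⟨(a : ℤ × ℤ) + d, ?_, ?_⟩
    · refine mem_Xr.2 ?_
      simp only [Prod.fst_add, Prod.snd_add]
      omega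
    · rw [phiC, tor_add, ← add_assoc, ← he, phiC]
      abel

/-- the ports are at distance `r + 1` from the middle -/
theorem port_torus {r : ℕ} {c : Tor N} {z : Tor N} (hz : z ∈ PX (AT N) r (phiC c)) :
    ∃ b : ℤ × ℤ, b ∈ Xr (r + 1) ∧ b ∉ Xr r ∧ z = phiC c b := by
  obtain ⟨h1, a, ha⟩ := mem_PX.1 hz
  have h2 : z - phiC c a ∈ nbs N := by
    by_contra h2
    exact ha (by unfold AT; rw [if_neg h2])
  obtain ⟨d, hd, he⟩ := mem_nbs_iff.1 h2
  have h3 : z = phiC c ((a : ℤ × ℤ) + d) := by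
    rw [phiC, tor_add, ← add_assoc, ← he, phiC]
    abel
  refine ⟨(a : ℤ × ℤ) + d, ?_, ?_, h3⟩
  · have := mem_Xr.1 a.2
    refine mem_Xr.2 ?_
    simp only [Prod.fst_add, Prod.snd_add]
    push_cast
    omega
  · intro h4
    exact h1 ⟨_, h4, h3.symm⟩

theorem Xr_card (r : ℕ) : (Xr r).card = (2 * r + 1) * (2 * r + 1) := by
  rw [← Fintype.card_coe, Fintype.card_congr (eX r), Fintype.card_prod, Fintype.card_fin]

theorem Xr_mono {r : ℕ} : Xr r ⊆ Xr (r + 1) := by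
  intro a ha
  have := mem_Xr.1 ha
  refine mem_Xr.2 ?_
  push_cast
  omega

/-- at most `8 r + 8` ports -/
theorem card_PX_torus {r : ℕ} (c : Tor N) : (PX (AT N) r (phiC c)).card ≤ 8 * r + 8 := by
  classical
  have h1 : PX (AT N) r (phiC c) ⊆ (Xr (r + 1) \ Xr r).image (phiC c) := by
    intro z hz
    obtain ⟨b, h1, h2, rfl⟩ := port_torus hz
    exact Finset.mem_image_of_mem _ (Finset.mem_sdiff.2 ⟨h1, h2⟩)
  refine (Finset.card_le_card h1).trans (Finset.card_image_le.trans ?_)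
  rw [Finset.card_sdiff_of_subset Xr_mono, Xr_card, Xr_card]
  have : (2 * (r + 1) + 1) * (2 * (r + 1) + 1) = (2 * r + 1) * (2 * r + 1) + (8 * r + 8) := by ring
  omega

/-! ### local coordinates -/

theorem val_add_int (x : ZMod N) (k : ℤ) (h0 : 0 ≤ (x.val : ℤ) + k) (h1 : (x.val : ℤ) + k < N) :
    (((x + (k : ZMod N)).val : ℕ) : ℤ) = x.val + k := by
  have h2 : x + (k : ZMod N) = (((x.val : ℤ) + k : ℤ) : ZMod N) := by
    push_cast
    rw [ZMod.natCast_zmod_val]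
  rw [h2, ZMod.val_intCast, Int.emod_eq_of_lt h0 h1]

theorem loc_shift1 {m : ℕ} (hm : m ∣ N) (x : ZMod N) (k : ℤ)
    (h0 : 0 ≤ ((x.val % m : ℕ) : ℤ) + k) (h1 : ((x.val % m : ℕ) : ℤ) + k < m) :
    (x + (k : ZMod N)).val / m = x.val / m ∧
      (((x + (k : ZMod N)).val % m : ℕ) : ℤ) = ((x.val % m : ℕ) : ℤ) + k := by
  have hm0 : 0 < m := by
    rcases Nat.eq_zero_or_pos m with h | h
    · subst h
      exact absurd (Nat.eq_zero_of_zero_dvd hm) (NeZero.ne N)
    · exact h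
  obtain ⟨t, ht⟩ := hm
  have h2 := Nat.div_add_mod x.val m
  have h3 := ZMod.val_lt x
  set q := x.val / m with hq
  set p := x.val % m with hp
  have h4 : q < t := by
    have : m * q < m * t := by omega
    exact lt_of_mul_lt_mul_left this (Nat.zero_le _)
  have h5 : m * q + m ≤ N := by
    rw [ht]
    have : m * (q + 1) ≤ m * t := Nat.mul_le_mul_left _ h4
    linarith
  have h6 : ((m * q + p : ℕ) : ℤ) = x.val := by exact_mod_cast h2
  push_cast at h6
  have h7 : (0 : ℤ) ≤ (m : ℤ) * q := by positivity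
  have h8 : ((m * q + m : ℕ) : ℤ) ≤ N := by exact_mod_cast h5
  push_cast at h8
  have h9 := val_add_int x k (by linarith) (by linarith)
  obtain ⟨j, hj⟩ : ∃ j : ℕ, (j : ℤ) = (p : ℤ) + k := ⟨((p : ℤ) + k).toNat, Int.toNat_of_nonneg h0⟩
  have h10 : (x + (k : ZMod N)).val = m * q + j := by
    have : (((x + (k : ZMod N)).val : ℕ) : ℤ) = ((m * q + j : ℕ) : ℤ) := by
      rw [h9]
      push_cast
      linarith
    exact_mod_cast this
  have h11 : j < m := by
    have : (j : ℤ) < m := by rw [hj]; exact h1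
    exact_mod_cast this
  rw [h10, ← hj]
  constructor
  · rw [Nat.mul_add_div hm0, Nat.div_eq_of_lt h11, add_zero]
  · rw [Nat.mul_add_mod, Nat.mod_eq_of_lt h11]

/-- **local coordinates in a block**: shifts which stay in the block -/
theorem loc_shift {m : ℕ} (hm : m ∣ N) (c : Tor N) (a : ℤ × ℤ)
    (h1 : 0 ≤ (((lc m c).1 : ℕ) : ℤ) + a.1) (h2 : (((lc m c).1 : ℕ) : ℤ) + a.1 < m)
    (h3 : 0 ≤ (((lc m c).2 : ℕ) : ℤ) + a.2) (h4 : (((lc m c).2 : ℕ) : ℤ) + a.2 < m) :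
    bi m (phiC c a) = bi m c ∧
      (((lc m (phiC c a)).1 : ℕ) : ℤ) = (lc m c).1 + a.1 ∧
      (((lc m (phiC c a)).2 : ℕ) : ℤ) = (lc m c).2 + a.2 := by
  obtain ⟨g1, g2⟩ := loc_shift1 hm c.1 a.1 h1 h2
  obtain ⟨g3, g4⟩ := loc_shift1 hm c.2 a.2 h3 h4
  exact ⟨Prod.ext g1 g3, g2, g4⟩

/-- **the cell in its block**: `x` has local coordinates `(p + y.1, q + y.2)`; the box of radius
`r` around the site with local coordinates `(p, q)` and its ports are in the block of `x` -/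
theorem tor_cell {m r : ℕ} (hm : m ∣ N) {y : Xr r}
    (hy : max (y : ℤ × ℤ).1.natAbs (y : ℤ × ℤ).2.natAbs < r) {p q : ℕ}
    (hp : r + 1 ≤ p) (hp' : p + r + 1 < m) (hq : r + 1 ≤ q) (hq' : q + r + 1 < m) {x : Tor N}
    (hx1 : (((lc m x).1 : ℕ) : ℤ) = p + (y : ℤ × ℤ).1)
    (hx2 : (((lc m x).2 : ℕ) : ℤ) = q + (y : ℤ × ℤ).2) :
    ∃ c : Tor N, phiC c y = x ∧ BoxEmb (AT N) r (phiC c) ∧
      CBox (AT N) x (LcX (phiC c) y) (PX (AT N) r (phiC c)) ∧
      (PX (AT N) r (phiC c)).card ≤ 8 * r + 8 ∧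
      (∀ z ∈ PX (AT N) r (phiC c), ∃ b : ℤ × ℤ, b ∈ Xr (r + 1) ∧ b ∉ Xr r ∧ z = phiC c b) ∧
      ∀ b : ℤ × ℤ, b ∈ Xr (r + 1) → bi m (phiC c b) = bi m x ∧
        lc m (phiC c b) = (((p : ℤ) + b.1).toNat, ((q : ℤ) + b.2).toNat) := by
  have hmN : m ≤ N := Nat.le_of_dvd (Nat.pos_of_ne_zero (NeZero.ne N)) hm
  have hy1 := mem_Xr.1 y.2
  -- the middle
  set c : Tor N := phiC x (-(y : ℤ × ℤ)) with hc
  have hcy : phiC c y = x := by
    rw [hc, phiC, phiC, add_assoc, ← tor_add, neg_add_cancel]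
    simp [tor]
  obtain ⟨g1, g2, g3⟩ := loc_shift hm x (-(y : ℤ × ℤ))
    (by rw [hx1, Prod.fst_neg]; omega) (by rw [hx1, Prod.fst_neg]; omega)
    (by rw [hx2, Prod.snd_neg]; omega) (by rw [hx2, Prod.snd_neg]; omega)
  rw [← hc] at g1 g2 g3
  have hc1 : (((lc m c).1 : ℕ) : ℤ) = p := by rw [g2, hx1, Prod.fst_neg]; ring
  have hc2 : (((lc m c).2 : ℕ) : ℤ) = q := by rw [g3, hx2, Prod.snd_neg]; ring
  have hB : BoxEmb (AT N) r (phiC c) := boxEmb_torus (by omega) c
  refine ⟨c, hcy, hB, ?_, card_PX_torus c, fun z hz => port_torus hz, ?_⟩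
  · have h1 := hB.cbox (y := y) hy
    rwa [hcy] at h1
  · intro b hb
    have hb' := mem_Xr.1 hb
    push_cast at hb'
    obtain ⟨g4, g5, g6⟩ := loc_shift hm c b (by rw [hc1]; omega) (by rw [hc1]; omega)
      (by rw [hc2]; omega) (by rw [hc2]; omega)
    refine ⟨g4.trans g1, ?_⟩
    rw [hc1] at g5
    rw [hc2] at g6
    apply Prod.ext
    · simp only
      omega
    · simp only
      omega

end Torus

end P365T1.H417
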